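import Crest.Agent.R5.Defs

/-!
# Row 27 (Artin's primitive root problem): interfaces and module statements

`S0037` follows from two inputs.

* `MainAP` (row 26): type-I functions with large prime moduli average to zero over the shifted
  primes of a fixed residue class.
* `ChebK` (row 312, quasi-Riemann hypothesis for the Kummer fields `ℚ(ζ_q, a^{1/q})`): an upper
  bound for the number of primes `p ≡ 1 (q)` modulo which `a` is a `q`-th power.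

Proof.  Fix `w`.  In the classes of `CrtStmt` (above the class of `ClsStmt`) `a` is a quadratic
non-residue and `p - 1` has no odd prime factor `≤ w`; they have density `≥ c(a) / √w`.  A fixed
proportion of the primes `p ∈ (2m, 3m]` of every class has a prime factor `Q > m^{99/100}` of `p - 1`
(`BigStmt`).  If `a` is not a primitive root then `a^{(p-1)/q} = 1` for a prime `q ∣ p - 1`;
`q = 2` is impossible, `q = Q` happens for `O(m^{1/50})` primes (`OrdStmt`), and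
`w < q ≤ 3 m^{1/100}` for at most `C m / (w log m) + O(m^{99/100})` primes (`ChebK`).
DO NOT change a definition of this file.
-/

set_option autoImplicit false

namespace Crest.Agent.R27

open Finset Filter NumberField

/-- the input from row 26 -/
def MainAP : Prop :=
  ∀ (M r : ℕ) (κ B η : ℝ), 1 ≤ M → 0 < κ → κ < 1 → 0 < η → ∀ᶠ X : ℕ in atTop,
    ∀ (R : Finset ℕ) (c : ℕ → ℝ), R5.TypeI X κ B R c →
      (∀ d ∈ R, ∀ p : ℕ, p.Prime → p ∣ d → (X : ℝ) ^ κ < p) →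
      |∑ p ∈ (Icc 1 X).filter (fun p => p.Prime ∧ p ≡ r [MOD M]), R5.gI R c (p - 1)| ≤
        η * X / Real.log X

open Classical in
/-- the primes `p ∈ (N, 2N]`, `p ≡ 1 (q)`, modulo which `a` is a non-zero `q`-th power -/
noncomputable def spl (a : ℤ) (q N : ℕ) : Finset ℕ :=
  (Ioc N (2 * N)).filter fun p => p.Prime ∧ q ∣ p - 1 ∧ (a : ZMod p) ^ ((p - 1) / q) = 1

/-- the Chebotarev bound -/
def ChebK : Prop :=
  ∀ a : ℤ, 2 ≤ |a| → ∃ (C : ℝ) (q₀ : ℕ), 0 < C ∧ ∀ q N : ℕ, q.Prime → q₀ ≤ q → 2 ≤ N →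
    ((spl a q N).card : ℝ) ≤ C * (N / ((q : ℝ) ^ 2 * Real.log N) + q * (N : ℝ) ^ (23 / 24 : ℝ))

/-- a good class modulo `4 |a|` -/
def ClsStmt : Prop :=
  ∀ a : ℤ, a ≠ -1 → ¬ IsSquare a → ∃ r : ℕ, r.Coprime (4 * a.natAbs) ∧ jacobiSym a r = -1 ∧
    ∀ l : ℕ, l.Prime → l ≠ 2 → l ∣ a.natAbs → ¬ r ≡ 1 [MOD l]

/-- many classes above it in which `p - 1` has no odd prime factor `≤ 2 k + 1` -/
def CrtStmt : Prop :=
  ∀ M₀ r₀ k : ℕ, 1 ≤ M₀ → r₀.Coprime M₀ → ∃ (M : ℕ) (S : Finset ℕ), 1 ≤ M ∧ M₀ ∣ M ∧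
    (∀ q : ℕ, q.Prime → q ≠ 2 → q ≤ 2 * k + 1 → q ∣ M) ∧
    (∀ r ∈ S, r < M ∧ r.Coprime M ∧ r ≡ r₀ [MOD M₀] ∧
      ∀ q : ℕ, q.Prime → q ≠ 2 → q ≤ 2 * k + 1 → ¬ q ∣ M₀ → ¬ r ≡ 1 [MOD q]) ∧
    M.totient ^ 2 ≤ (4 * k + 1) * (S.card * M₀.totient) ^ 2

open Classical in
/-- the primes `p ∈ (2m, 3m]` of the class `r` such that `p - 1` has a very large prime factor -/
noncomputable def big (M r m : ℕ) : Finset ℕ :=
  (Ioc (2 * m) (3 * m)).filter fun p => p.Prime ∧ p ≡ r [MOD M] ∧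
    ∃ Q : ℕ, Q.Prime ∧ (m : ℝ) ^ (99 / 100 : ℝ) < Q ∧ Q ∣ p - 1

def BigStmt : Prop :=
  ∃ c : ℝ, 0 < c ∧ ∀ M r : ℕ, 1 ≤ M → r.Coprime M → ∀ᶠ m : ℕ in atTop,
    c / M.totient * (m / Real.log m) ≤ (big M r m).card

/-- few primes have a small order -/
def OrdStmt : Prop :=
  ∀ (a : ℤ) (K : ℕ) (S : Finset ℕ), 2 ≤ |a| →
    (∀ p ∈ S, p.Prime ∧ ∃ k : ℕ, 1 ≤ k ∧ k ≤ K ∧ (a : ZMod p) ^ k = 1) → S.card ≤ a.natAbs * K ^ 2

/-- the Kummer field `ℚ(ζ_q, a^{1/q})` -/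
def KumStmt : Prop :=
  ∀ a : ℤ, 2 ≤ |a| → ∃ (C : ℝ) (q₀ : ℕ), 0 < C ∧ ∀ q : ℕ, q.Prime → q₀ ≤ q →
    ∃ (F : Type) (_ : Field F) (_ : NumberField F), IsTotallyComplex F ∧
      (q : ℝ) ^ 2 ≤ 2 * Module.finrank ℚ F ∧
      Module.finrank ℚ F + Real.log |(discr F : ℝ)| ≤ C * q * Module.finrank ℚ F ∧
      ∀ p : ℕ, p.Prime → q ∣ p - 1 → (a : ZMod p) ^ ((p - 1) / q) = 1 →
        ∃ S : Finset (Ideal (𝓞 F)), S.card = Module.finrank ℚ F ∧ ∀ P ∈ S, Ideal.absNorm P = p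

/-- the statement `S0037` -/
def ArtinStmt : Prop :=
  ∀ a : ℤ, a ≠ -1 → ¬ IsSquare a →
    ∃ c : ℝ, 0 < c ∧ ∃ x₀ : ℝ, 2 ≤ x₀ ∧ ∀ x : ℝ, x₀ ≤ x →
      c * x / Real.log x ^ 2 ≤
        (Set.ncard {p : ℕ | p.Prime ∧ x < (p : ℝ) ∧ (p : ℝ) < 2 * x ∧ ¬ ((p : ℤ) ∣ a) ∧
          orderOf ((a : ℤ) : ZMod p) = p - 1} : ℝ)

end Crest.Agent.R27
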