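import Crest.Agent.R27.Iface
import Crest.Agent.R5.Mertens
import Crest.Agent.Lib.PNT.Main

/-! Row 27: shifted primes with a very large prime factor. -/

set_option autoImplicit false

namespace Crest.Agent.R27

open Finset Filter NumberField Topology

namespace Big

/-- the large primes -/
noncomputable abbrev RR (m : ℕ) : Finset ℕ :=
  R5.pr ((m : ℝ) ^ (99 / 100 : ℝ)) ((m : ℝ) ^ (199 / 200 : ℝ))

theorem mem_RR {m q : ℕ} (h : q ∈ RR m) :
    q.Prime ∧ (m : ℝ) ^ (99 / 100 : ℝ) < q ∧ (q : ℝ) ≤ (m : ℝ) ^ (199 / 200 : ℝ) := by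
  obtain ⟨h1, h2, h3⟩ := mem_filter.1 h
  exact ⟨h2, h3, (Nat.le_floor_iff (by positivity)).1 (mem_Icc.1 h1).2⟩

theorem card_le {m n : ℕ} (hm : 9 ≤ m) (hn : 1 ≤ n) (hn' : n ≤ (3 * m) ^ 2) :
    ((RR m).filter (fun d => d ∣ n)).card ≤ 3 := by
  have hm' : (9 : ℝ) ≤ m := by exact_mod_cast hm
  have h1 : ∏ q ∈ (RR m).filter (fun d => d ∣ n), q ≤ (3 * m) ^ 2 :=
    (Nat.le_of_dvd hn (prod_primes_dvd n (fun q hq => (mem_RR (mem_filter.1 hq).1).1.prime)
      fun q hq => (mem_filter.1 hq).2)).trans hn'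
  have h2 : ((m : ℝ) ^ (99 / 100 : ℝ)) ^ ((RR m).filter (fun d => d ∣ n)).card ≤
      ∏ q ∈ (RR m).filter (fun d => d ∣ n), (q : ℝ) := by
    rw [← prod_const]
    exact prod_le_prod (fun _ _ => by positivity) fun q hq => (mem_RR (mem_filter.1 hq).1).2.1.le
  have h3 : ∏ q ∈ (RR m).filter (fun d => d ∣ n), (q : ℝ) ≤ (3 * m) ^ 2 := by
    rw [← Nat.cast_prod]
    exact_mod_cast h1
  have h4 : (m : ℝ) ^ 3 < ((m : ℝ) ^ (99 / 100 : ℝ)) ^ 4 := by
    rw [← Real.rpow_natCast, ← Real.rpow_natCast, ← Real.rpow_mul (by linarith)]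
    exact Real.rpow_lt_rpow_of_exponent_lt (by linarith) (by norm_num)
  have h5 : (3 * m : ℝ) ^ 2 ≤ (m : ℝ) ^ 3 := by nlinarith
  exact Nat.lt_succ_iff.1 ((pow_lt_pow_iff_right₀ (Real.one_lt_rpow (by linarith) (by norm_num))).1
    ((h2.trans (h3.trans h5)).trans_lt h4))

theorem tendsto_log : Tendsto (fun m : ℕ => Real.log m) atTop atTop :=
  Real.tendsto_log_atTop.comp tendsto_natCast_atTop_atTop

theorem sigma : ∀ᶠ m : ℕ in atTop,
    1 / 400 ≤ ∑ q ∈ RR m, 1 / (q : ℝ) ∧ ∑ q ∈ RR m, 1 / (q : ℝ) ≤ 3 := by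
  obtain ⟨C, hC, h, -⟩ := R5.mertens
  filter_upwards [tendsto_log.eventually_ge_atTop (500 * C), eventually_ge_atTop 1] with m h1 h2
  have hm : (1 : ℝ) ≤ m := by exact_mod_cast h2
  have hl : 0 < Real.log m := by linarith
  have h3 := abs_le.1 (h ((m : ℝ) ^ (99 / 100 : ℝ)) ((m : ℝ) ^ (199 / 200 : ℝ))
    (by
      rw [Real.rpow_def_of_pos (by linarith)]
      linarith [Real.add_one_le_exp (Real.log m * (99 / 100))])
    (Real.rpow_le_rpow_of_exponent_le hm (by norm_num)))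
  rw [Real.log_rpow (by linarith), Real.log_rpow (by linarith),
    ← Real.log_div (by positivity) (by positivity),
    show 199 / 200 * Real.log m / (99 / 100 * Real.log m) = 199 / 198 by field_simp; norm_num] at h3
  have h4 := Real.one_sub_inv_le_log_of_pos (x := 199 / 198) (by norm_num)
  have h5 := Real.log_le_sub_one_of_pos (x := 199 / 198) (by norm_num)
  have h6 : C / (99 / 100 * Real.log m) ≤ 1 / 400 := by
    rw [div_le_iff₀ (by positivity)]
    linarith
  norm_num at h4 h5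
  constructor <;> linarith [h3.1, h3.2]

theorem typeI : ∀ᶠ m : ℕ in atTop, ∀ X : ℕ, m ≤ X → X ≤ 3 * m →
    R5.TypeI X (1 / 200) 3 (RR m) (fun _ => 1) ∧
      ∀ d ∈ RR m, ∀ p : ℕ, p.Prime → p ∣ d → (X : ℝ) ^ (1 / 200 : ℝ) < p := by
  filter_upwards [sigma, tendsto_log.eventually_ge_atTop 3, eventually_ge_atTop 9]
    with m h1 h2 h3 X h4 h5
  have hm : (9 : ℝ) ≤ m := by exact_mod_cast h3
  have h4' : (m : ℝ) ≤ X := by exact_mod_cast h4
  have h5' : (X : ℝ) ≤ m * m := by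
    have : (X : ℝ) ≤ 3 * m := by exact_mod_cast h5
    nlinarith
  have h6 : Real.log X ≤ 2 * Real.log m := by
    have := Real.log_le_log (by linarith) h5'
    rw [Real.log_mul (by linarith) (by linarith)] at this
    linarith
  have h7 : ∀ d ∈ RR m, ∀ p : ℕ, p.Prime → p ∣ d → Real.exp (Real.log m * (99 / 100)) < p :=
    fun d hd p hp hpd => by
      rw [(Nat.prime_dvd_prime_iff_eq hp (mem_RR hd).1).1 hpd, ← Real.rpow_def_of_pos (by linarith)]
      exact (mem_RR hd).2.1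
  refine ⟨⟨fun _ => by simp, fun d hd => (mem_RR hd).1.one_le, fun d hd => (mem_RR hd).2.2.trans ?_,
    fun d hd p hp hpd => lt_of_le_of_lt (Real.exp_le_exp.2 ?_) (h7 d hd p hp hpd), h1.2,
    fun n hn hn' => ?_⟩, fun d hd p hp hpd => lt_of_le_of_lt ?_ (h7 d hd p hp hpd)⟩
  · rw [show (1 : ℝ) - 1 / 200 = 199 / 200 by norm_num]
    gcongr
  · exact Real.sqrt_le_iff.2 ⟨by positivity, by nlinarith⟩
  · exact_mod_cast card_le h3 hn (hn'.trans (Nat.pow_le_pow_left h5 2))
  · rw [Real.rpow_def_of_pos (by linarith)]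
    exact Real.exp_le_exp.2 (by linarith)

theorem sum_split (P : ℕ → Prop) [DecidablePred P] (f : ℕ → ℝ) (m : ℕ) :
    ∑ p ∈ (Ioc (2 * m) (3 * m)).filter P, f p =
      ∑ p ∈ (Icc 1 (3 * m)).filter P, f p - ∑ p ∈ (Icc 1 (2 * m)).filter P, f p := by
  simp only [sum_filter]
  rw [eq_sub_iff_add_eq']
  exact sum_Ioc_consecutive _ (Nat.zero_le (2 * m)) (by omega : 2 * m ≤ 3 * m)

theorem primes {M r : ℕ} (hM : 1 ≤ M) (hr : r.Coprime M) : ∀ᶠ m : ℕ in atTop,
    1 / 4 / M.totient * (m / Real.log m) ≤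
      ((Ioc (2 * m) (3 * m)).filter fun p => p.Prime ∧ p ≡ r [MOD M]).card := by
  have : NeZero M := ⟨by omega⟩
  have hφ : (0 : ℝ) < M.totient := by exact_mod_cast Nat.totient_pos.2 hM
  have h := Lib.PNT.thetaAP_tendsto ((ZMod.isUnit_iff_coprime r M).2 hr)
  have ht : ∀ j : ℕ, 0 < j → Tendsto (fun m : ℕ => ((j * m : ℕ) : ℝ)) atTop atTop := fun j hj =>
    tendsto_natCast_atTop_atTop.comp (tendsto_id.const_mul_atTop' hj)
  have h1 := ((h.comp (ht 3 (by norm_num))).const_mul 3).sub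
    ((h.comp (ht 2 (by norm_num))).const_mul 2)
  filter_upwards [h1.eventually_const_le (u := 1 / 2 / (M.totient : ℝ)) (by
    rw [div_eq_mul_inv _ (M.totient : ℝ)]
    linarith [inv_pos.2 hφ]), eventually_ge_atTop 3] with m h2 h3
  have hm : (3 : ℝ) ≤ m := by exact_mod_cast h3
  have hl : 0 < Real.log m := Real.log_pos (by linarith)
  simp only [Function.comp, Nat.floor_natCast, ZMod.natCast_eq_natCast_iff] at h2
  have h4 := sum_split (fun p => p.Prime ∧ p ≡ r [MOD M]) (fun p => Real.log p) m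
  have h5 := sum_le_card_nsmul ((Ioc (2 * m) (3 * m)).filter fun p => p.Prime ∧ p ≡ r [MOD M])
    (fun p => Real.log p) (2 * Real.log m) fun p hp => by
      obtain ⟨b1, b2⟩ := mem_Ioc.1 (mem_filter.1 hp).1
      have b3 : (p : ℝ) ≤ 3 * m := by exact_mod_cast b2
      have b4 := Real.log_le_log (x := p) (y := m * m) (by exact_mod_cast (by omega : 0 < p))
        (by nlinarith)
      rw [Real.log_mul (by linarith) (by linarith)] at b4
      linarith
  rw [nsmul_eq_mul, h4] at h5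
  push_cast at h2
  rw [← mul_div_assoc, ← mul_div_assoc, mul_div_mul_left _ _ (by norm_num),
    mul_div_mul_left _ _ (by norm_num), ← sub_div, le_div_iff₀ (by linarith)] at h2
  rw [← mul_div_assoc, div_le_iff₀ hl]
  have e : 1 / 4 / (M.totient : ℝ) * m = 1 / 2 / M.totient * m / 2 := by ring
  linarith

end Big

open Big in
theorem bigOf : MainAP → BigStmt := by
  classical
  intro h
  refine ⟨1 / 10000, by norm_num, fun M r hM hr => ?_⟩
  have hφ : (0 : ℝ) < M.totient := by exact_mod_cast Nat.totient_pos.2 hM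
  have h1 := h M r (1 / 200) 3 (1 / 16000 / M.totient) hM (by norm_num) (by norm_num) (by positivity)
  filter_upwards [(tendsto_id.const_mul_atTop' (by norm_num : 0 < 2)).eventually h1,
    (tendsto_id.const_mul_atTop' (by norm_num : 0 < 3)).eventually h1, typeI, sigma, primes hM hr,
    eventually_ge_atTop 9] with m a1 a2 a3 a4 a5 a6
  have hm : (9 : ℝ) ≤ m := by exact_mod_cast a6
  have hl : 0 < Real.log m := Real.log_pos (by linarith)
  simp only [id] at a1 a2
  have b0 : ∀ j : ℕ, 1 ≤ j → 1 / 16000 / M.totient * ((j * m : ℕ) : ℝ) / Real.log (j * m : ℕ) ≤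
      j * (1 / 16000 / M.totient * (m / Real.log m)) := fun j hj => by
    have hj' : (1 : ℝ) ≤ j := by exact_mod_cast hj
    push_cast
    calc _ ≤ 1 / 16000 / M.totient * ((j : ℝ) * m) / Real.log m := by
          gcongr
          nlinarith
      _ = _ := by ring
  have b1 := (abs_le.1 ((a1 _ _ (a3 _ (by omega) (by omega)).1 (a3 _ (by omega) (by omega)).2).trans
    (b0 2 (by norm_num)))).2
  have b2 := (abs_le.1 ((a2 _ _ (a3 _ (by omega) (by omega)).1 (a3 _ (by omega) (by omega)).2).trans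
    (b0 3 (by norm_num)))).1
  have b3 := sum_split (fun p => p.Prime ∧ p ≡ r [MOD M])
    (fun p => R5.gI (RR m) (fun _ => 1) (p - 1)) m
  have b4 : ∑ p ∈ (Ioc (2 * m) (3 * m)).filter (fun p => p.Prime ∧ p ≡ r [MOD M]),
      R5.gI (RR m) (fun _ => 1) (p - 1) ≤
      ∑ p ∈ (Ioc (2 * m) (3 * m)).filter (fun p => p.Prime ∧ p ≡ r [MOD M]),
        ((if p ∈ big M r m then 3 else 0) - 1 / 400) := by
    refine sum_le_sum fun p hp => ?_
    obtain ⟨c1, c2, c3⟩ := mem_filter.1 hp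
    have c4 := mem_Ioc.1 c1
    simp only [R5.gI, one_mul, sum_sub_distrib, sum_boole]
    refine sub_le_sub ?_ a4.1
    split_ifs with c5
    · exact_mod_cast card_le a6 (by omega) (by nlinarith [Nat.sub_le p 1])
    · rw [filter_eq_empty_iff.2 fun Q hQ hQ' => c5
        (mem_filter.2 ⟨c1, c2, c3, Q, (mem_RR hQ).1, (mem_RR hQ).2.1, hQ'⟩)]
      simp
  have b5 : ∑ p ∈ (Ioc (2 * m) (3 * m)).filter (fun p => p.Prime ∧ p ≡ r [MOD M]),
      (if p ∈ big M r m then (3 : ℝ) else 0) ≤ 3 * (big M r m).card := by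
    rw [← sum_filter, sum_const, nsmul_eq_mul, mul_comm]
    gcongr
    exact fun p hp => (mem_filter.1 hp).2
  rw [sum_sub_distrib, sum_const, nsmul_eq_mul] at b4
  have b6 : 0 < 1 / (M.totient : ℝ) * (m / Real.log m) := by positivity
  have e : ∀ t : ℝ, t / M.totient * (m / Real.log m) = t * (1 / M.totient * (m / Real.log m)) :=
    fun t => by ring
  rw [e] at a5 b1 b2 ⊢
  push_cast at b1 b2
  linarith

end Crest.Agent.R27
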