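import Crest.Agent.R27.Desc
import Crest.Agent.R312.ZPit

/-! Row 27: the Chebotarev bound from the smooth prime ideal theorem. -/

set_option autoImplicit false

namespace Crest.Agent.R27

open Finset Filter NumberField
open Crest.Agent.R312

namespace Cheb

theorem le_deg1 {F : Type} [Field F] [NumberField F] {p : ℕ}
    (S : Finset (Ideal (𝓞 F))) (h : ∀ P ∈ S, Ideal.absNorm P = p) : S.card ≤ deg1 F p := by
  have hf : {I : Ideal (𝓞 F) | Ideal.absNorm I = p}.Finite := Ideal.finite_setOfPred_absNorm_eq p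
  rw [← Set.ncard_coe_finset]
  exact Set.ncard_le_ncard h hf

theorem le_Wr {y : ℝ} (h1 : 1 ≤ y) (h2 : y ≤ 2) : Real.exp (-1) ≤ Wr y := by
  have h3 := Real.log_nonneg h1
  have h4 := Real.log_le_sub_one_of_pos (x := y) (by linarith)
  exact Real.exp_le_exp.2 (by nlinarith)

end Cheb

open Cheb in
theorem chebOf : KumStmt → MobAll → ChebK := by
  intro hK hM a ha
  obtain ⟨C₁, hC₁, hP⟩ := pit
  obtain ⟨C₂, q₀, hC₂, h⟩ := hK a ha
  obtain ⟨A, hA⟩ : ∃ A : ℝ, A = Real.sqrt Real.pi * Real.exp (1 / 4) := ⟨_, rfl⟩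
  have hA0 : 0 < A := by rw [hA]; positivity
  refine ⟨Real.exp 1 * (2 * A + 2 * C₁ * C₂), q₀, by positivity, fun q N hq hq₀ hN => ?_⟩
  obtain ⟨F, _, _, _, h1, h2, h3⟩ := h q hq hq₀
  have hN' : (2 : ℝ) ≤ N := by exact_mod_cast hN
  have hq' : (0 : ℝ) < q := by exact_mod_cast hq.pos
  have hl : 1 / 2 ≤ Real.log N := by
    linarith [Real.log_two_gt_d9, Real.log_le_log (by norm_num) hN']
  have h4 := (abs_le.1 (hP F (zf_of_mobAll hM F) N (by linarith))).2
  rw [← hA] at h4
  have h5 : cnd F ≤ C₂ * q * Module.finrank ℚ F := h2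
  have hn : (0 : ℝ) < Module.finrank ℚ F := by nlinarith
  have h6 : ((spl a q N).card : ℝ) * (Module.finrank ℚ F * (Real.log N * Real.exp (-1))) ≤
      thW F N := by
    rw [← nsmul_eq_mul]
    refine (card_nsmul_le_sum _ _ _ fun p hp => ?_).trans
      ((summable_thW F (by linarith)).sum_le_tsum _ fun r _ => ?_)
    · obtain ⟨b1, b2, b3, b4⟩ := mem_filter.1 hp
      obtain ⟨b5, b6⟩ := mem_Ioc.1 b1
      have b7 : (N : ℝ) ≤ p := by exact_mod_cast b5.le
      have b8 : (p : ℝ) ≤ 2 * N := by exact_mod_cast b6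
      obtain ⟨S, c1, c2⟩ := h3 p b2 b3 b4
      have c3 := le_deg1 S c2
      rw [c1] at c3
      rw [if_pos b2]
      have c4 := le_Wr ((one_le_div (by linarith)).2 b7) ((div_le_iff₀ (by linarith)).2 b8)
      gcongr
    · split_ifs
      · exact mul_nonneg (Nat.cast_nonneg _)
          (mul_nonneg (Real.log_natCast_nonneg r) (Real.exp_pos _).le)
      · exact le_rfl
  have hx : (0 : ℝ) ≤ (N : ℝ) ^ (23 / 24 : ℝ) := by positivity
  generalize (N : ℝ) ^ (23 / 24 : ℝ) = x at *
  generalize (Module.finrank ℚ F : ℝ) = n at *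
  generalize Real.log N = l at *
  have hl0 : 0 < l := by linarith
  rw [← le_div_iff₀ (by positivity)] at h6
  calc ((spl a q N).card : ℝ) ≤ _ := h6
    _ ≤ (A * N + C₁ * (C₂ * q * n) * x) / (n * (l * Real.exp (-1))) := by
        gcongr
        have : C₁ * cnd F * x ≤ C₁ * (C₂ * q * n) * x := by gcongr
        linarith
    _ = Real.exp 1 * (2 * A * (N / (2 * n * l)) + 2 * C₁ * C₂ * (q * x) * (1 / (2 * l))) := by
        rw [Real.exp_neg]
        field_simp
    _ ≤ Real.exp 1 * (2 * A * (N / (q ^ 2 * l)) + 2 * C₁ * C₂ * (q * x) * 1) := by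
        gcongr
        rw [div_le_one (by positivity)]
        linarith
    _ ≤ _ := by
        rw [mul_assoc (Real.exp 1)]
        have b1 : 0 ≤ 2 * A * (q * x) := by positivity
        have b2 : 0 ≤ 2 * C₁ * C₂ * (N / (q ^ 2 * l)) := by positivity
        gcongr
        linarith

end Crest.Agent.R27
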