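import Crest.Agent.R27.Iface

/-! Row 27: a good residue class modulo `4 |a|`. -/

set_option autoImplicit false

namespace Crest.Agent.R27

open Finset Filter NumberField

namespace Cls

theorem crt2 {m n : ℕ} (h : m.Coprime n) (hm : m ≠ 0) (hn : n ≠ 0) (x y : ℤ) :
    ∃ r : ℕ, (r : ℤ) % m = x % m ∧ (r : ℤ) % n = y % n := by
  obtain ⟨r, h1, h2⟩ := Nat.chineseRemainder h (x % m).toNat (y % n).toNat
  have h3 := Int.natCast_modEq_iff.2 h1
  have h4 := Int.natCast_modEq_iff.2 h2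
  rw [Int.toNat_of_nonneg (Int.emod_nonneg _ (by exact_mod_cast hm))] at h3
  rw [Int.toNat_of_nonneg (Int.emod_nonneg _ (by exact_mod_cast hn))] at h4
  exact ⟨r, h3.trans (Int.mod_modEq _ _), h4.trans (Int.mod_modEq _ _)⟩

theorem nonres {l : ℕ} (hl : l.Prime) (h2 : l ≠ 2) (h3 : l ≠ 3) :
    ∃ g : ℤ, jacobiSym g l = -1 ∧ ¬ (l : ℤ) ∣ g + 1 := by
  have := Fact.mk hl
  obtain ⟨x, hx⟩ := FiniteField.exists_nonsquare (F := ZMod l) (by rwa [ZMod.ringChar_zmod_n])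
  obtain ⟨g, rfl⟩ := ZMod.intCast_surjective x
  rw [← ZMod.nonsquare_iff_jacobiSym_eq_neg_one] at hx
  by_cases h : (l : ℤ) ∣ g + 1
  · refine ⟨4 * g, by rw [jacobiSym.mul_left, jacobiSym.at_four (hl.odd_of_ne_two h2), hx,
      one_mul], fun h4 => h3 ?_⟩
    have h5 : (l : ℤ) ∣ (3 : ℕ) :=
      (dvd_sub (h.mul_left 4) h4).trans (dvd_of_eq (by push_cast; ring))
    exact (Nat.prime_dvd_prime_iff_eq hl Nat.prime_three).1 (Int.natCast_dvd_natCast.1 h5)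
  · exact ⟨g, hx, h⟩

theorem not_dvd_two {b l : ℕ} (hb : Odd b) (hl : l.Prime) (h : l ∣ b) : ¬ (l : ℤ) ∣ -1 - 1 := by
  intro h1
  have h2 : (l : ℤ) ∣ (2 : ℕ) := by simpa using h1
  obtain rfl := (Nat.prime_dvd_prime_iff_eq hl Nat.prime_two).1 (Int.natCast_dvd_natCast.1 h2)
  exact hb.not_two_dvd_nat h

theorem rho {b : ℕ} (hb : Odd b) (hs : ¬ IsSquare b) :
    ∃ ρ : ℤ, jacobiSym ρ b = -1 ∧ ∀ l : ℕ, l.Prime → l ∣ b → ¬ (l : ℤ) ∣ ρ - 1 := by
  rcases Nat.odd_mod_four_iff.1 (Nat.odd_iff.1 hb) with h4 | h4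
  swap
  · exact ⟨-1, by rw [jacobiSym.at_neg_one hb, ZMod.χ₄_nat_three_mod_four h4],
      fun l hl h => not_dvd_two hb hl h⟩
  obtain ⟨d, s, hds, hd⟩ := Nat.sq_mul_squarefree b
  obtain ⟨l, hl, hld, h3⟩ : ∃ l : ℕ, l.Prime ∧ l ∣ d ∧ l ≠ 3 := by
    have h1 : d ≠ 1 := by
      rintro rfl
      exact hs ⟨s, by rw [← hds]; ring⟩
    by_cases h3 : 3 ∣ d
    · obtain ⟨d, rfl⟩ := h3
      have h5 : d ≠ 1 := by
        rintro rfl
        obtain ⟨t, rfl | rfl⟩ := s.even_or_odd'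
        · rw [show (2 * t) ^ 2 * (3 * 1) = 4 * (3 * t ^ 2) by ring] at hds
          omega
        · rw [show (2 * t + 1) ^ 2 * (3 * 1) = 4 * (3 * t ^ 2 + 3 * t) + 3 by ring] at hds
          omega
      refine ⟨_, Nat.minFac_prime h5, (Nat.minFac_dvd d).mul_left 3, fun h => ?_⟩
      exact absurd (hd 3 (mul_dvd_mul_left 3 (h ▸ Nat.minFac_dvd d))) (by simp)
    · exact ⟨_, Nat.minFac_prime h1, Nat.minFac_dvd d, fun h => h3 (h ▸ Nat.minFac_dvd d)⟩
  have hlb : l ∣ b := hds ▸ hld.mul_left _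
  obtain ⟨g, hg, hg1⟩ := nonres hl (by rintro rfl; exact hb.not_two_dvd_nat hlb) h3
  obtain ⟨k, c, hc, hk⟩ := Nat.exists_eq_pow_mul_and_not_dvd hb.pos.ne' l hl.ne_one
  have hc0 : c ≠ 0 := by rintro rfl; exact hc (dvd_zero l)
  obtain ⟨u, hu1, hu2⟩ := crt2 ((Nat.Prime.coprime_iff_not_dvd hl).2 hc) hl.ne_zero hc0 g 1
  obtain ⟨e, rfl⟩ := hld
  have he0 : e ≠ 0 := by rintro rfl; simp at hd
  have hs0 : s ≠ 0 := by rintro rfl; rw [← hds] at hb; simp at hb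
  have hec : e ∣ c := Nat.Coprime.dvd_of_dvd_mul_left (m := l ^ k)
    (Nat.Coprime.pow_right k ((Nat.Prime.coprime_iff_not_dvd hl).2 fun h =>
      hl.one_lt.ne' (Nat.isUnit_iff.1 (hd l (mul_dvd_mul_left l h)))).symm)
    (by rw [← hk, ← hds]; exact ((dvd_mul_left e l).mul_left _))
  have a1 : jacobiSym u l = -1 := (jacobiSym.mod_left' hu1).trans hg
  have a2 : jacobiSym u b ≠ 0 := by
    rw [hk, jacobiSym.mul_right' _ (pow_ne_zero _ hl.ne_zero) hc0, jacobiSym.pow_right, a1,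
      jacobiSym.mod_left' hu2, jacobiSym.one_left]
    simp
  have a3 : jacobiSym u b = -jacobiSym u s ^ 2 := by
    rw [← hds, jacobiSym.mul_right' _ (pow_ne_zero _ hs0) hd.ne_zero, jacobiSym.pow_right,
      jacobiSym.mul_right' _ hl.ne_zero he0, a1, jacobiSym.mod_left' (a₂ := 1)
      (Int.ModEq.of_dvd (Int.natCast_dvd_natCast.2 hec) hu2), jacobiSym.one_left]
    ring
  refine ⟨-u, ?_, fun q hq hqb h => ?_⟩
  · rw [jacobiSym.neg _ hb, ZMod.χ₄_nat_one_mod_four h4, one_mul]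
    rcases jacobiSym.trichotomy u s with h | h | h <;> simp_all
  · rcases (Nat.Prime.dvd_mul hq).1 (hk ▸ hqb) with h5 | h5
    · obtain rfl := (Nat.prime_dvd_prime_iff_eq hq hl).1 (hq.dvd_of_dvd_pow h5)
      exact hg1 ((dvd_sub (Int.ModEq.dvd hu1) h).trans (dvd_of_eq (by ring)))
    · exact not_dvd_two hb hq hqb ((dvd_sub h ((Int.natCast_dvd_natCast.2 h5).trans
        (Int.ModEq.dvd hu2))).trans (dvd_of_eq (by ring)))

/-- the symbol `(b / r)` for `r ≡ -1` modulo `4 b` -/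
theorem neg_one {b r : ℕ} (hb : Odd b) (h4 : r % 4 = 3) (hr : (r : ℤ) % b = -1 % b) :
    jacobiSym b r = 1 := by
  rw [jacobiSym.quadratic_reciprocity' hb (Nat.odd_iff.2 (by omega)), qrSign,
    ZMod.χ₄_nat_three_mod_four h4, jacobiSym.mod_left' hr, ← jacobiSym.mul_left]
  simp

end Cls

open Cls in
theorem cls : ClsStmt := by
  intro a ha hs
  have h0 : a.natAbs ≠ 0 := by
    rw [Int.natAbs_ne_zero]
    rintro rfl
    exact hs IsSquare.zero
  obtain ⟨e, b, hb, hab⟩ := Nat.exists_eq_two_pow_mul_odd h0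
  suffices h : ∃ (t ρ : ℤ), t % 2 = 1 ∧ (∀ l : ℕ, l.Prime → l ∣ b → ¬ (l : ℤ) ∣ ρ - 1) ∧
      ∀ r : ℕ, Odd r → (r : ℤ) % 8 = t % 8 → (r : ℤ) % b = ρ % b → jacobiSym a r = -1 by
    obtain ⟨t, ρ, ht, h1, h2⟩ := h
    obtain ⟨r, h3, h4⟩ := crt2 (m := 8) (n := b)
      (Nat.Coprime.pow_left 3 (Nat.coprime_two_left.2 hb)) (by norm_num) hb.pos.ne' t ρ
    have hr : Odd r := Nat.odd_iff.2 (by omega)
    have h5 := h2 r hr h3 h4
    have : NeZero r := ⟨hr.pos.ne'⟩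
    refine ⟨r, Nat.Coprime.mul_right (Nat.Coprime.pow_right 2 (Nat.coprime_two_right.2 hr)) ?_, h5,
      fun l hl hl2 hla h => ?_⟩
    · have h6 : a.gcd r = 1 := by_contra fun h => by
        rw [jacobiSym.eq_zero_iff_not_coprime.2 h] at h5
        omega
      exact Nat.Coprime.symm h6
    · have h6 : l ∣ b := ((Nat.Prime.dvd_mul hl).1 (hab ▸ hla)).resolve_left fun h =>
        hl2 ((Nat.prime_dvd_prime_iff_eq hl Nat.prime_two).1 (hl.dvd_of_dvd_pow h))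
      exact h1 l hl h6 ((dvd_sub ((Int.natCast_dvd_natCast.2 h6).trans (Int.ModEq.dvd h4))
        h.dvd).trans (dvd_of_eq (by push_cast; ring)))
  have hn := fun l hl h => not_dvd_two (l := l) hb hl h
  rcases Int.natAbs_eq a with h | h <;> rw [hab] at h <;> push_cast at h
  · rcases e.even_or_odd with he | he
    · obtain ⟨ρ, h1, h2⟩ := rho hb fun hsq => hs (by
        rw [h]
        exact (he.isSquare_pow 2).mul (Int.isSquare_natCast_iff.2 hsq))
      refine ⟨1, ρ, rfl, h2, fun r hr h3 h4 => ?_⟩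
      rw [h, jacobiSym.mul_left, jacobiSym.pow_left, jacobiSym.at_two hr,
        ZMod.χ₈_nat_eq_if_mod_eight, if_neg (by omega), if_pos (by omega),
        jacobiSym.quadratic_reciprocity_one_mod_four' hb (by omega), jacobiSym.mod_left' h4, h1]
      simp
    · refine ⟨3, -1, rfl, hn, fun r hr h3 h4 => ?_⟩
      rw [h, jacobiSym.mul_left, jacobiSym.pow_left, jacobiSym.at_two hr,
        ZMod.χ₈_nat_eq_if_mod_eight, if_neg (by omega), if_neg (by omega),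
        neg_one hb (by omega) h4, he.neg_one_pow, mul_one]
  · refine ⟨7, -1, rfl, hn, fun r hr h3 h4 => ?_⟩
    rw [h, jacobiSym.neg _ hr, jacobiSym.mul_left, jacobiSym.pow_left, jacobiSym.at_two hr,
      ZMod.χ₈_nat_eq_if_mod_eight, if_neg (by omega), if_pos (by omega),
      neg_one hb (by omega) h4, ZMod.χ₄_nat_three_mod_four (by omega)]
    simp

end Crest.Agent.R27
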