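import Crest.Agent.R27.Iface

/-! Row 27: sifting the classes; primes with a small order. -/

set_option autoImplicit false

namespace Crest.Agent.R27

open Finset Filter NumberField

namespace Crt

theorem aux (M₀ r₀ : ℕ) (h₀ : 1 ≤ M₀) (hr₀ : r₀.Coprime M₀) (k : ℕ) :
    ∃ (M : ℕ) (S : Finset ℕ), (∀ q : ℕ, q.Prime → q ∣ M → q ∣ M₀ ∨ q ≤ 2 * k + 1) ∧
    1 ≤ M ∧ M₀ ∣ M ∧ (∀ q : ℕ, q.Prime → q ≠ 2 → q ≤ 2 * k + 1 → q ∣ M) ∧
    (∀ r ∈ S, r < M ∧ r.Coprime M ∧ r ≡ r₀ [MOD M₀] ∧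
      ∀ q : ℕ, q.Prime → q ≠ 2 → q ≤ 2 * k + 1 → ¬ q ∣ M₀ → ¬ r ≡ 1 [MOD q]) ∧
    M.totient ^ 2 ≤ (4 * k + 1) * (S.card * M₀.totient) ^ 2 := by
  induction k with
  | zero =>
    refine ⟨M₀, {r₀ % M₀}, fun q _ h => .inl h, h₀, dvd_rfl, fun q hq _ h => ?_, fun r hr => ?_,
      by simp⟩
    · have := hq.two_le
      omega
    · rw [mem_singleton.1 hr]
      refine ⟨Nat.mod_lt _ h₀, by simpa using hr₀, Nat.mod_modEq _ _, fun q hq _ h => ?_⟩
      have := hq.two_le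
      omega
  | succ k ih =>
    obtain ⟨M, S, h1, h2, h3, h4, h5, h6⟩ := ih
    have hq : ∀ q : ℕ, q.Prime → q ≠ 2 → q ≤ 2 * (k + 1) + 1 → q ≤ 2 * k + 1 ∨ q = 2 * k + 3 :=
      fun q hq h2 h => by
        have := Nat.odd_iff.1 (hq.odd_of_ne_two h2)
        omega
    by_cases hc : (2 * k + 3).Prime ∧ ¬ 2 * k + 3 ∣ M₀
    swap
    · refine ⟨M, S, fun q hq h => (h1 q hq h).imp_right (by omega), h2, h3, fun q hp h2 h => ?_,
        fun r hr => ⟨(h5 r hr).1, (h5 r hr).2.1, (h5 r hr).2.2.1, fun q hp h2 h hd => ?_⟩,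
        h6.trans (by gcongr; omega)⟩
      · rcases hq q hp h2 h with h | rfl
        · exact h4 q hp h2 h
        · exact (by_contra fun h => hc ⟨hp, h⟩ : _ ∣ M₀).trans h3
      · rcases hq q hp h2 h with h | rfl
        · exact (h5 r hr).2.2.2 q hp h2 h hd
        · exact absurd ⟨hp, hd⟩ hc
    obtain ⟨hp, hd⟩ := hc
    have hco : M.Coprime (2 * k + 3) := ((Nat.Prime.coprime_iff_not_dvd hp).2 fun h =>
      (h1 _ hp h).elim hd (by omega)).symm
    obtain ⟨g, hg⟩ : ∃ g : ℕ × ℕ → ℕ, ∀ x, g x < M * (2 * k + 3) ∧ g x ≡ x.1 [MOD M] ∧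
        g x ≡ x.2 [MOD 2 * k + 3] :=
      ⟨fun x => Nat.chineseRemainder hco x.1 x.2, fun x =>
        ⟨Nat.chineseRemainder_lt_mul hco _ _ (by omega) (by omega),
          (Nat.chineseRemainder hco x.1 x.2).2⟩⟩
    refine ⟨M * (2 * k + 3), (S ×ˢ Icc 2 (2 * k + 2)).image g, fun q hq h => ?_,
      Nat.mul_pos h2 hp.pos, h3.mul_right _, fun q hq' h2 h => ?_, fun r hr => ?_, ?_⟩
    · rcases (Nat.Prime.dvd_mul hq).1 h with h | h
      · exact (h1 q hq h).imp_right (by omega)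
      · exact .inr (Nat.le_of_dvd hp.pos h)
    · rcases hq q hq' h2 h with h | rfl
      · exact (h4 q hq' h2 h).mul_right _
      · exact dvd_mul_left _ _
    · obtain ⟨x, hx, rfl⟩ := mem_image.1 hr
      obtain ⟨a1, a2⟩ := mem_product.1 hx
      rw [mem_Icc] at a2
      obtain ⟨b1, b2, b3⟩ := hg x
      obtain ⟨c1, c2, c3, c4⟩ := h5 _ a1
      refine ⟨b1, Nat.Coprime.mul_right (b2.gcd_eq.trans c2) (b3.gcd_eq.trans
        (Nat.coprime_of_lt_prime (by omega) (by omega) hp).symm), (b2.of_dvd h3).trans c3,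
        fun q hq' h2 h hd' he => ?_⟩
      rcases hq q hq' h2 h with h | rfl
      · exact c4 q hq' h2 h hd' ((b2.of_dvd (h4 q hq' h2 h)).symm.trans he)
      · have := Nat.ModEq.eq_of_lt_of_lt (b3.symm.trans he) (by omega) (by omega)
        omega
    · rw [card_image_of_injOn, card_product, Nat.card_Icc, Nat.totient_mul hco,
        Nat.totient_prime hp, show 2 * k + 3 - 1 = 2 * k + 2 by omega,
        show 2 * k + 2 + 1 - 2 = 2 * k + 1 by omega]
      · calc _ = M.totient ^ 2 * (2 * k + 2) ^ 2 := by ring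
          _ ≤ (4 * k + 1) * (S.card * M₀.totient) ^ 2 * (2 * k + 2) ^ 2 := by gcongr
          _ = (4 * k + 1) * (2 * k + 2) ^ 2 * (S.card * M₀.totient) ^ 2 := by ring
          _ ≤ (4 * (k + 1) + 1) * (2 * k + 1) ^ 2 * (S.card * M₀.totient) ^ 2 :=
            Nat.mul_le_mul_right _ (by nlinarith)
          _ = _ := by ring
      · intro x hx y hy h
        obtain ⟨a1, a2⟩ := mem_product.1 (mem_coe.1 hx)
        obtain ⟨a3, a4⟩ := mem_product.1 (mem_coe.1 hy)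
        rw [mem_Icc] at a2 a4
        exact Prod.ext (Nat.ModEq.eq_of_lt_of_lt ((hg x).2.1.symm.trans (h ▸ (hg y).2.1))
          (h5 _ a1).1 (h5 _ a3).1) (Nat.ModEq.eq_of_lt_of_lt
            ((hg x).2.2.symm.trans (h ▸ (hg y).2.2)) (by omega) (by omega))

theorem two_pow_le {n : ℕ} (hn : n ≠ 0) : 2 ^ n.primeFactors.card ≤ n :=
  (pow_card_le_prod _ (fun p => p) 2 fun _ hp => (Nat.prime_of_mem_primeFactors hp).two_le).trans
    (Nat.le_of_dvd (Nat.pos_of_ne_zero hn) n.prod_primeFactors_dvd)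

end Crt

theorem crt : CrtStmt := fun M₀ r₀ k h₀ hr₀ =>
  let ⟨M, S, _, h⟩ := Crt.aux M₀ r₀ h₀ hr₀ k
  ⟨M, S, h⟩

theorem ord : OrdStmt := by
  intro a K S ha hS
  have h2 : 2 ≤ a.natAbs := by
    rw [← Int.natCast_natAbs] at ha
    exact_mod_cast ha
  have h0 : ∀ k, 1 ≤ k → (a ^ k - 1).natAbs ≠ 0 := fun k hk h => by
    have h1 := congrArg Int.natAbs (sub_eq_zero.1 (Int.natAbs_eq_zero.1 h))
    rw [Int.natAbs_pow, Int.natAbs_one, Nat.pow_eq_one] at h1
    omega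
  calc S.card ≤ ((Icc 1 K).biUnion fun k => (a ^ k - 1).natAbs.primeFactors).card := by
        refine card_le_card fun p hp => ?_
        obtain ⟨h1, k, h3, h4, h5⟩ := hS p hp
        refine mem_biUnion.2 ⟨k, mem_Icc.2 ⟨h3, h4⟩, Nat.mem_primeFactors.2 ⟨h1, ?_, h0 k h3⟩⟩
        rw [← Int.natCast_dvd, ← ZMod.intCast_zmod_eq_zero_iff_dvd]
        push_cast
        rw [h5, sub_self]
    _ ≤ ∑ k ∈ Icc 1 K, a.natAbs * K := by
        refine card_biUnion_le.trans (sum_le_sum fun k hk => ?_)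
        rw [mem_Icc] at hk
        refine le_trans ((Nat.pow_le_pow_iff_right one_lt_two).1
          ((Crt.two_pow_le (h0 k hk.1)).trans ?_)) (Nat.mul_le_mul_left _ hk.2)
        calc _ ≤ a.natAbs ^ k + 1 ^ k := by
              simpa [Int.natAbs_pow] using Int.natAbs_sub_le (a ^ k) 1
          _ ≤ (a.natAbs + 1) ^ k := pow_add_pow_le (by omega) (by omega) (by omega)
          _ ≤ _ := by
              rw [pow_mul]
              exact Nat.pow_le_pow_left Nat.lt_two_pow_self k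
    _ = _ := by
        rw [sum_const, Nat.card_Icc, smul_eq_mul, Nat.add_sub_cancel]
        ring

end Crest.Agent.R27
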