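import Crest.Agent.R27.Iface

/-! Row 27: decomposition of primes in `F(ω) / F`. -/

set_option autoImplicit false

namespace Crest.Agent.R27

open Finset Filter NumberField

open IsDedekindDomain

variable {F E : Type} [Field F] [NumberField F] [Field E] [NumberField E] [Algebra F E]

/-- The primes above `P`. -/
def ovr (E : Type) [Field E] [NumberField E] [Algebra F E] (P : HeightOneSpectrum (𝓞 F)) :
    Set (HeightOneSpectrum (𝓞 E)) :=
  {Q | Q.asIdeal.under (𝓞 F) = P.asIdeal}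

namespace Split3

theorem three_mem_iff (P : HeightOneSpectrum (𝓞 F)) :
    (3 : 𝓞 F) ∈ P.asIdeal ↔ Ideal.absNorm P.asIdeal % 3 = 0 := by
  have := P.isMaximal
  obtain ⟨p, n, hn, hp, hp', h⟩ := P.asIdeal.exists_prime_and_absNorm_eq_pow
  rw [h, ← Nat.dvd_iff_mod_eq_zero, Nat.prime_three.prime.dvd_pow_iff_dvd hn.ne',
    Nat.prime_dvd_prime_iff_eq Nat.prime_three hp']
  refine ⟨fun h3 => by_contra fun hne => P.isPrime.ne_top ((Ideal.eq_top_iff_one _).2 ?_),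
    fun h3 => by rw [← h3] at hp; exact_mod_cast hp⟩
  obtain ⟨a, b, hab⟩ := Nat.Coprime.cast (R := 𝓞 F) ((Nat.coprime_primes Nat.prime_three hp').2 hne)
  rw [← hab]
  exact add_mem (P.asIdeal.mul_mem_left _ (by exact_mod_cast h3)) (P.asIdeal.mul_mem_left _ hp)

theorem norm_mod {w : 𝓞 E} (hw : w ^ 2 + w + 1 = 0) (Q : HeightOneSpectrum (𝓞 E))
    (h3 : (3 : 𝓞 E) ∉ Q.asIdeal) : Ideal.absNorm Q.asIdeal % 3 = 1 := by
  have := Q.isMaximal
  let := Ideal.Quotient.field Q.asIdeal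
  have := Ideal.finiteQuotientOfFreeOfNeBot Q.asIdeal Q.ne_bot
  have := Fintype.ofFinite (𝓞 E ⧸ Q.asIdeal)
  have := Fact.mk Nat.prime_three
  have h1 : Ideal.Quotient.mk Q.asIdeal w ^ 3 = 1 := by
    rw [← map_pow, show w ^ 3 = 1 by linear_combination (w - 1) * hw, map_one]
  have h2 : Ideal.Quotient.mk Q.asIdeal w ≠ 1 := fun h => h3 (by
    rw [← Ideal.Quotient.eq_zero_iff_mem, map_ofNat]
    have h4 := congrArg (Ideal.Quotient.mk Q.asIdeal) hw
    rw [map_add, map_add, map_pow, h, map_one, map_zero] at h4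
    linear_combination h4)
  have h0 : Ideal.Quotient.mk Q.asIdeal w ≠ 0 := fun h => by simp [h] at h1
  have h4 := orderOf_dvd_of_pow_eq_one (FiniteField.pow_card_sub_one_eq_one _ h0)
  rw [orderOf_eq_prime h1 h2] at h4
  have h5 := Fintype.card_pos (α := 𝓞 E ⧸ Q.asIdeal)
  rw [Ideal.absNorm_apply, Submodule.cardQuot_apply, Nat.card_eq_fintype_card]
  omega

theorem exists_root (P : HeightOneSpectrum (𝓞 F)) (h : Ideal.absNorm P.asIdeal % 3 = 1) :
    ∃ r : 𝓞 F, r ^ 2 + r + 1 ∈ P.asIdeal := by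
  have := P.isMaximal
  let := Ideal.Quotient.field P.asIdeal
  have := Ideal.finiteQuotientOfFreeOfNeBot P.asIdeal P.ne_bot
  have := Fact.mk Nat.prime_three
  rw [Ideal.absNorm_apply, Submodule.cardQuot_apply] at h
  obtain ⟨u, hu⟩ := exists_prime_orderOf_dvd_card' (G := (𝓞 F ⧸ P.asIdeal)ˣ) 3
    (by rw [Nat.card_units]; omega)
  obtain ⟨r, hr⟩ := Ideal.Quotient.mk_surjective (u : 𝓞 F ⧸ P.asIdeal)
  have h1 : (u : 𝓞 F ⧸ P.asIdeal) ^ 3 = 1 := by
    rw [← Units.val_pow_eq_pow_val, ← hu, pow_orderOf_eq_one, Units.val_one]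
  have h2 : (u : 𝓞 F ⧸ P.asIdeal) - 1 ≠ 0 := fun h => by
    rw [Units.val_eq_one.1 (sub_eq_zero.1 h), orderOf_one] at hu
    omega
  refine ⟨r, ?_⟩
  rw [← Ideal.Quotient.eq_zero_iff_mem, map_add, map_add, map_pow, hr, map_one]
  exact mul_left_cancel₀ h2 (by linear_combination h1)

theorem liesOver {P : HeightOneSpectrum (𝓞 F)} {Q : HeightOneSpectrum (𝓞 E)} (h : Q ∈ ovr E P) :
    Q.asIdeal.LiesOver P.asIdeal := ⟨Eq.symm h⟩

theorem sum_le (P : HeightOneSpectrum (𝓞 F)) (U : Finset (HeightOneSpectrum (𝓞 E)))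
    (hU : ∀ Q ∈ U, Q ∈ ovr E P) :
    ∑ Q ∈ U, P.asIdeal.inertiaDeg' Q.asIdeal ≤ Module.finrank F E := by
  classical
  have := P.isMaximal
  rw [← Ideal.sum_ramification_inertia (𝓞 E) F E P.ne_bot, ← sum_image
    (f := fun Q => P.asIdeal.inertiaDeg' Q) fun _ _ _ _ h => HeightOneSpectrum.ext h]
  refine (sum_le_sum_of_subset fun J hJ => ?_).trans (sum_le_sum fun J hJ => ?_)
  · obtain ⟨Q, hQ, rfl⟩ := mem_image.1 hJ
    exact (IsDedekindDomain.mem_primesOverFinset_iff P.ne_bot _).2 ⟨Q.isPrime, liesOver (hU Q hQ)⟩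
  · obtain ⟨h1, h2⟩ := (IsDedekindDomain.mem_primesOverFinset_iff P.ne_bot _).1 hJ
    exact Nat.le_mul_of_pos_left _ (Nat.pos_of_ne_zero
      (Ideal.IsDedekindDomain.ramificationIdx'_ne_zero_of_liesOver _ P.ne_bot))

theorem exists_over (P : HeightOneSpectrum (𝓞 F)) : ∃ Q, Q ∈ ovr E P := by
  have := P.isMaximal
  obtain ⟨Q, h1, h2⟩ := Ideal.exists_maximal_ideal_liesOver_of_isIntegral (S := 𝓞 E) P.asIdeal
  exact ⟨⟨Q, h1.isPrime, Ideal.ne_bot_of_liesOver_of_ne_bot P.ne_bot Q⟩, h2.over.symm⟩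

theorem exists_conj (h2 : Module.finrank F E = 2) {ω : E} (hω : ω ^ 2 + ω + 1 = 0)
    (hF : ∀ x : F, x ^ 2 + x + 1 ≠ 0) : ∃ τ : E ≃ₐ[F] E, τ (ω ^ 2) = ω := by
  have : Algebra.IsQuadraticExtension F E := ⟨h2⟩
  have hi : Irreducible (Polynomial.X ^ 2 + Polynomial.X + 1 : Polynomial F) :=
    Polynomial.irreducible_of_degree_le_three_of_not_isRoot
      (by rw [show (Polynomial.X ^ 2 + Polynomial.X + 1 : Polynomial F).natDegree = 2 by
        compute_degree!]; decide) fun x hx => hF x (by simpa using hx)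
  refine minpoly.exists_algEquiv_of_root (Algebra.IsAlgebraic.isAlgebraic ω) ?_
  rw [← minpoly.eq_of_irreducible_of_monic hi (by simpa using hω) (by monicity!)]
  simp only [map_add, map_pow, Polynomial.aeval_X, map_one]
  linear_combination (ω ^ 2 - ω + 1) * hω

end Split3

open Split3 in
theorem split3 (h2 : Module.finrank F E = 2) {ω : E} (hω : ω ^ 2 + ω + 1 = 0)
    (hF : ∀ x : F, x ^ 2 + x + 1 ≠ 0) (P : HeightOneSpectrum (𝓞 F)) :
    (Ideal.absNorm P.asIdeal % 3 = 0 → ∀ Q ∈ ovr E P, Ideal.absNorm Q.asIdeal % 3 = 0) ∧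
    (Ideal.absNorm P.asIdeal % 3 = 1 → ∃ Q₁ Q₂, Q₁ ≠ Q₂ ∧ ovr E P = {Q₁, Q₂} ∧
      Ideal.absNorm Q₁.asIdeal = Ideal.absNorm P.asIdeal ∧
      Ideal.absNorm Q₂.asIdeal = Ideal.absNorm P.asIdeal) ∧
    (Ideal.absNorm P.asIdeal % 3 = 2 → ∃ Q, ovr E P = {Q} ∧
      Ideal.absNorm Q.asIdeal = Ideal.absNorm P.asIdeal ^ 2) := by
  have := P.isMaximal
  obtain ⟨w, rfl⟩ : ∃ w : 𝓞 E, (w : E) = ω := ⟨⟨ω, IsIntegral.of_pow (n := 3) (by norm_num) (by
    rw [show ω ^ 3 = 1 by linear_combination (ω - 1) * hω]; exact isIntegral_one)⟩, rfl⟩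
  have hw : w ^ 2 + w + 1 = 0 := RingOfIntegers.ext (by exact_mod_cast hω)
  have hN : ∀ Q ∈ ovr E P, Ideal.absNorm Q.asIdeal =
      Ideal.absNorm P.asIdeal ^ P.asIdeal.inertiaDeg' Q.asIdeal ∧
        0 < P.asIdeal.inertiaDeg' Q.asIdeal := fun Q hQ =>
    have := liesOver hQ
    ⟨Ideal.absNorm_eq_pow_inertiaDeg'_of_liesOver _ _ P.isPrime P.ne_bot,
      Ideal.inertiaDeg'_pos _ _⟩
  have h3 : ∀ Q ∈ ovr E P, (3 : 𝓞 E) ∈ Q.asIdeal → Ideal.absNorm P.asIdeal % 3 = 0 :=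
    fun Q hQ h => (three_mem_iff P).1 (by
      rw [← show _ = P.asIdeal from hQ, Ideal.under, Ideal.mem_comap, map_ofNat]
      exact h)
  have hs := fun U hU => (sum_le P U hU).trans h2.le
  classical
  refine ⟨fun h Q hQ => ?_, fun h => ?_, fun h => ?_⟩
  · rw [(hN Q hQ).1]
    exact Nat.mod_eq_zero_of_dvd (dvd_pow (Nat.dvd_of_mod_eq_zero h) (hN Q hQ).2.ne')
  · obtain ⟨Q₁, hQ₁⟩ := exists_over (E := E) P
    obtain ⟨r, hr⟩ := exists_root P h
    obtain ⟨τ, hτ⟩ := exists_conj h2 hω hF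
    obtain ⟨t, ht⟩ : ∃ t : 𝓞 E ≃ₐ[𝓞 F] 𝓞 E, t (w ^ 2) = w :=
      ⟨RingOfIntegers.mapAlgEquiv τ, RingOfIntegers.ext hτ⟩
    have ht' : t w = w ^ 2 := by
      rw [show w = (w ^ 2) ^ 2 by linear_combination (w - w ^ 2) * hw, map_pow, ht]
      linear_combination (-(w ^ 6) + w ^ 5 - w ^ 3 + w ^ 2) * hw
    obtain ⟨Q₂, hQ₂⟩ : ∃ Q₂ : HeightOneSpectrum (𝓞 E), ∀ x, x ∈ Q₂.asIdeal ↔ t x ∈ Q₁.asIdeal :=
      ⟨Q₁.comap t.toRingEquiv.toRingHom t.surjective, fun _ => Iff.rfl⟩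
    have hQ₂' : Q₂ ∈ ovr E P := by
      refine Eq.trans (Ideal.ext fun x => ?_) hQ₁
      rw [Ideal.under, Ideal.under, Ideal.mem_comap, Ideal.mem_comap, hQ₂, t.commutes]
    have hne : Q₁ ≠ Q₂ := by
      rintro rfl
      have a1 : (w - algebraMap _ _ r) * (w ^ 2 - algebraMap _ _ r) ∈ Q₁.asIdeal := by
        rw [← show _ = P.asIdeal from hQ₁, Ideal.under, Ideal.mem_comap, map_add, map_add, map_pow,
          map_one] at hr
        convert hr using 1
        linear_combination (w - 1 - algebraMap _ _ r) * hw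
      have a2 : w - algebraMap _ _ r ∈ Q₁.asIdeal ∧ w ^ 2 - algebraMap _ _ r ∈ Q₁.asIdeal := by
        rcases Q₁.isPrime.mem_or_mem a1 with a | a
        · exact ⟨a, by simpa only [map_sub, ht', t.commutes] using (hQ₂ _).1 a⟩
        · exact ⟨by simpa only [map_sub, ht, t.commutes] using (hQ₂ _).1 a, a⟩
      have a3 := Q₁.asIdeal.pow_mem_of_mem (sub_mem a2.1 a2.2) 2 two_pos
      have a4 := h3 Q₁ hQ₁ (by
        convert neg_mem a3 using 1
        linear_combination (w ^ 2 - 3 * w + 3) * hw)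
      omega
    have b1 := hs {Q₁, Q₂} (by simp [hQ₁, hQ₂'])
    rw [sum_pair hne] at b1
    have b2 := (hN _ hQ₁).2
    have b3 := (hN _ hQ₂').2
    refine ⟨Q₁, Q₂, hne, Set.ext fun Q => ⟨fun hQ => by_contra fun hc => ?_, ?_⟩,
      by rw [(hN _ hQ₁).1, show P.asIdeal.inertiaDeg' Q₁.asIdeal = 1 by omega, pow_one],
      by rw [(hN _ hQ₂').1, show P.asIdeal.inertiaDeg' Q₂.asIdeal = 1 by omega, pow_one]⟩
    · have b4 := hs (insert Q {Q₁, Q₂}) (by simp [hQ₁, hQ₂', hQ])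
      rw [sum_insert (by simpa using hc), sum_pair hne] at b4
      have := (hN _ hQ).2
      omega
    · rintro (rfl | rfl)
      exacts [hQ₁, hQ₂']
  · obtain ⟨Q₁, hQ₁⟩ := exists_over (E := E) P
    have a1 : ∀ Q ∈ ovr E P, 2 ≤ P.asIdeal.inertiaDeg' Q.asIdeal := fun Q hQ => by
      have b1 := norm_mod hw Q fun h4 => by have := h3 Q hQ h4; omega
      have b2 := (hN Q hQ).2
      by_contra b3
      rw [(hN Q hQ).1, show P.asIdeal.inertiaDeg' Q.asIdeal = 1 by omega, pow_one] at b1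
      omega
    have b1 := hs {Q₁} (by simp [hQ₁])
    rw [sum_singleton] at b1
    refine ⟨Q₁, Set.ext fun Q => ⟨fun hQ => by_contra fun hc => ?_, fun hQ => hQ ▸ hQ₁⟩,
      by rw [(hN _ hQ₁).1, le_antisymm b1 (a1 _ hQ₁)]⟩
    have b2 := hs {Q, Q₁} (by simp [hQ₁, hQ])
    rw [sum_pair hc] at b2
    have := a1 _ hQ
    have := a1 _ hQ₁
    omega

theorem exists_quad (hF : ∀ x : F, x ^ 2 + x + 1 ≠ 0) :
    ∃ (E : Type) (_ : Field E) (_ : NumberField E) (_ : Algebra F E) (ω : E),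
      Module.finrank F E = 2 ∧ ω ^ 2 + ω + 1 = 0 := by
  have hd : (Polynomial.X ^ 2 + Polynomial.X + 1 : Polynomial F).natDegree = 2 := by
    compute_degree!
  have := Fact.mk (Polynomial.irreducible_of_degree_le_three_of_not_isRoot
    (p := (Polynomial.X ^ 2 + Polynomial.X + 1 : Polynomial F)) (by rw [hd]; decide)
    fun x hx => hF x (by simpa using hx))
  have hm : (Polynomial.X ^ 2 + Polynomial.X + 1 : Polynomial F).Monic := by monicity!
  have := (AdjoinRoot.powerBasis' hm).finite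
  refine ⟨AdjoinRoot (Polynomial.X ^ 2 + Polynomial.X + 1 : Polynomial F), inferInstance,
    NumberField.of_module_finite F _, inferInstance, AdjoinRoot.root _, ?_, ?_⟩
  · rw [(AdjoinRoot.powerBasis' hm).finrank, AdjoinRoot.powerBasis'_dim, hd]
  · have h := AdjoinRoot.eval₂_root (Polynomial.X ^ 2 + Polynomial.X + 1 : Polynomial F)
    rwa [Polynomial.eval₂_add, Polynomial.eval₂_add, Polynomial.eval₂_X_pow, Polynomial.eval₂_X,
      Polynomial.eval₂_one] at h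

end Crest.Agent.R27
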