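import Crest.Agent.R27.Euler
import Crest.Agent.R27.Split3
import Crest.Agent.R312.ZZero
import Crest.Agent.R312.ZTwist

/-! Row 27: the zero-free half plane descends from `F(ω)` to `F`. -/

set_option autoImplicit false

noncomputable section

namespace Crest.Agent.R27

open Finset Filter NumberField IsDedekindDomain
open Crest.Agent.R312

namespace Desc

/-- The quadratic character modulo `3`. -/
def chi3 : DirichletCharacter ℂ 3 := (quadraticChar (ZMod 3)).ringHomComp (Int.castRingHom ℂ)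

theorem chi3_one {n : ℕ} (h : n % 3 = 1) : chi3 (n : ZMod 3) = 1 := by
  rw [← ZMod.natCast_mod, h, Nat.cast_one, map_one]

theorem chi3_two {n : ℕ} (h : n % 3 = 2) : chi3 (n : ZMod 3) = -1 := by
  have h1 : quadraticChar (ZMod 3) ((2 : ℕ) : ZMod 3) = -1 :=
    quadraticChar_neg_one_iff_not_isSquare.2 (by decide)
  rw [← ZMod.natCast_mod, h, chi3, MulChar.ringHomComp_apply, h1]
  simp

theorem chi_zero (χ : DirichletCharacter ℂ 3) {n : ℕ} (h : n % 3 = 0) : χ (n : ZMod 3) = 0 := by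
  rw [← ZMod.natCast_mod, h, Nat.cast_zero, χ.map_zero]

theorem one_apply {n : ℕ} (h : n % 3 ≠ 0) : (1 : DirichletCharacter ℂ 3) (n : ZMod 3) = 1 := by
  refine MulChar.one_apply ((ZMod.isUnit_iff_coprime n 3).2 ?_)
  exact ((Nat.Prime.coprime_iff_not_dvd Nat.prime_three).2 fun h1 =>
    h (Nat.mod_eq_zero_of_dvd h1)).symm

variable {F : Type} [Field F] [NumberField F]

theorem euler {M : ℕ} (χ : DirichletCharacter ℂ M) {s : ℂ} (hs : 1 < s.re) :
    (∀ P : HeightOneSpectrum (𝓞 F), 1 - χ (Ideal.absNorm P.asIdeal : ZMod M) *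
      (Ideal.absNorm P.asIdeal : ℂ) ^ (-s) ≠ 0) ∧
    HasProd (fun P : HeightOneSpectrum (𝓞 F) => (1 - χ (Ideal.absNorm P.asIdeal : ZMod M) *
      (Ideal.absNorm P.asIdeal : ℂ) ^ (-s))⁻¹) (Dz F (fun I => χ (Ideal.absNorm I : ZMod M)) s) := by
  have h0 : s ≠ 0 := by
    rintro rfl
    norm_num at hs
  have h := euler_ideal ((dirichletSummandHom χ h0).comp (Ideal.absNorm (S := 𝓞 F)))
    (summable_norm_Dz (g := fun I => χ (Ideal.absNorm I : ZMod M)) (fun _ => χ.norm_le_one _) hs)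
  refine ⟨fun P h1 => ?_, h.2⟩
  have h2 : ‖χ (Ideal.absNorm P.asIdeal : ZMod M) * (Ideal.absNorm P.asIdeal : ℂ) ^ (-s)‖ < 1 :=
    h.1 P
  rw [← sub_eq_zero.1 h1, norm_one] at h2
  exact lt_irrefl _ h2

variable (F) in
theorem finite3 : {P : HeightOneSpectrum (𝓞 F) | Ideal.absNorm P.asIdeal % 3 = 0}.Finite := by
  have h3 : Ideal.span {(3 : 𝓞 F)} ≠ 0 := by
    rw [Ne, Ideal.zero_eq_bot, Ideal.span_singleton_eq_bot]
    norm_num
  refine (Ideal.finite_factors h3).subset fun P hP => ?_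
  obtain ⟨p, f, hp, hf, h⟩ := exists_under P
  have h1 : p = 3 := by
    have h2 : 3 ∣ p ^ f := h ▸ Nat.dvd_of_mod_eq_zero hP
    exact ((Nat.prime_dvd_prime_iff_eq Nat.prime_three hp).1
      (Nat.prime_three.dvd_of_dvd_pow h2)).symm
  have h2 := Ideal.absNorm_mem P.asIdeal
  rw [h, h1, Nat.cast_pow] at h2
  exact Ideal.dvd_span_singleton.2 (by exact_mod_cast P.isPrime.mem_of_pow_mem f h2)

variable (F) in
/-- The Euler factors above `3`. -/
theorem remove3 : ∃ A : ℂ → ℂ, Differentiable ℂ A ∧ (∀ s : ℂ, 0 < s.re → A s ≠ 0) ∧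
    ∀ s : ℂ, 1 < s.re → Dz F (fun I => (1 : DirichletCharacter ℂ 3) (Ideal.absNorm I : ZMod 3)) s =
      Dz F (fun _ => 1) s * A s := by
  classical
  have hN : ∀ P : HeightOneSpectrum (𝓞 F), 2 ≤ Ideal.absNorm P.asIdeal := fun P => by
    obtain ⟨p, f, hp, hf, h⟩ := exists_under P
    rw [h]
    exact hp.two_le.trans (Nat.le_self_pow (by omega) p)
  refine ⟨fun s => ∏ P ∈ (finite3 F).toFinset, (1 - (Ideal.absNorm P.asIdeal : ℂ) ^ (-s)),
    Differentiable.fun_finsetProd fun P _ => (differentiable_const _).sub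
      (differentiable_id.neg.const_cpow (.inl (Nat.cast_ne_zero.2 (by have := hN P; omega)))),
    fun s hs => prod_ne_zero_iff.2 fun P _ h => ?_, fun s hs => ?_⟩
  · have h1 := congrArg norm (sub_eq_zero.1 h)
    rw [norm_one, Complex.norm_natCast_cpow_of_pos (by have := hN P; omega)] at h1
    refine absurd h1.symm (Real.rpow_lt_one_of_one_lt_of_neg ?_ (by simpa using hs)).ne
    exact_mod_cast hN P
  · have h1 := euler (F := F) (1 : DirichletCharacter ℂ 1) hs
    have e : ∀ n : ℕ, (1 : DirichletCharacter ℂ 1) (n : ZMod 1) = 1 := fun n =>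
      MulChar.one_apply (isUnit_of_subsingleton _)
    simp only [e, one_mul] at h1
    have h2 : HasProd (fun P : HeightOneSpectrum (𝓞 F) => if P ∈ (finite3 F).toFinset then
        1 - (Ideal.absNorm P.asIdeal : ℂ) ^ (-s) else 1)
        (∏ P ∈ (finite3 F).toFinset, (1 - (Ideal.absNorm P.asIdeal : ℂ) ^ (-s))) := by
      rw [← prod_congr rfl fun P hP => if_pos hP]
      exact hasProd_prod_of_ne_finset_one fun P hP => if_neg hP
    refine (euler (F := F) (1 : DirichletCharacter ℂ 3) hs).2.unique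
      ((h1.2.mul h2).congr_fun fun P => ?_)
    by_cases h3 : Ideal.absNorm P.asIdeal % 3 = 0
    · rw [if_pos ((finite3 F).mem_toFinset.2 h3), chi_zero _ h3, inv_mul_cancel₀ (h1.1 P)]
      simp
    · rw [if_neg fun h => h3 ((finite3 F).mem_toFinset.1 h), one_apply h3, one_mul, mul_one]

/-- `ζ_E = ζ_F · L` away from `3`. -/
theorem ident {E : Type} [Field E] [NumberField E] [Algebra F E] (h2 : Module.finrank F E = 2)
    {ω : E} (hω : ω ^ 2 + ω + 1 = 0) (hF : ∀ x : F, x ^ 2 + x + 1 ≠ 0) {s : ℂ} (hs : 1 < s.re) :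
    Dz E (fun I => (1 : DirichletCharacter ℂ 3) (Ideal.absNorm I : ZMod 3)) s =
      Dz F (fun I => (1 : DirichletCharacter ℂ 3) (Ideal.absNorm I : ZMod 3)) s *
        Dz F (fun I => chi3 (Ideal.absNorm I : ZMod 3)) s := by
  classical
  have hE := (euler (F := E) (1 : DirichletCharacter ℂ 3) hs).2
  generalize hf : (fun Q : HeightOneSpectrum (𝓞 E) =>
    (1 - (1 : DirichletCharacter ℂ 3) (Ideal.absNorm Q.asIdeal : ZMod 3) *
      (Ideal.absNorm Q.asIdeal : ℂ) ^ (-s))⁻¹) = f at hE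
  have hfib : ∀ (P : HeightOneSpectrum (𝓞 F)) (Q : HeightOneSpectrum (𝓞 E)),
      Q.under (𝓞 F) = P ↔ Q ∈ ovr E P := fun P Q => HeightOneSpectrum.ext_iff
  refine HasProd.unique (((Equiv.sigmaFiberEquiv
      (HeightOneSpectrum.under (𝓞 F) (B := 𝓞 E))).hasProd_iff.2 hE).sigma fun P => ?_)
    ((euler (F := F) (1 : DirichletCharacter ℂ 3) hs).2.mul (euler (F := F) chi3 hs).2)
  have key : ∀ T : Finset (HeightOneSpectrum (𝓞 E)), ovr E P = T →
      HasProd (fun c : {Q : HeightOneSpectrum (𝓞 E) // Q.under (𝓞 F) = P} => f c) (∏ Q ∈ T, f Q) := by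
    intro T hT
    have e : {Q : HeightOneSpectrum (𝓞 E) | Q.under (𝓞 F) = P} = T := by
      rw [← hT]
      exact Set.ext (hfib P)
    have h : HasProd (fun c : (T : Set (HeightOneSpectrum (𝓞 E))) => f c) (∏ Q ∈ T, f Q) :=
      T.hasProd f
    rw [← e] at h
    exact h
  obtain ⟨a0, a1, a2⟩ := split3 h2 hω hF P
  have hm : Ideal.absNorm P.asIdeal % 3 = 0 ∨ Ideal.absNorm P.asIdeal % 3 = 1 ∨
      Ideal.absNorm P.asIdeal % 3 = 2 := by omega
  rcases hm with h | h | h
  · rw [chi_zero _ h, chi_zero _ h, zero_mul, sub_zero, inv_one, mul_one]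
    refine hasProd_one.congr_fun fun Q => ?_
    rw [← hf]
    simp only [Function.comp, Equiv.sigmaFiberEquiv, Equiv.coe_fn_mk]
    rw [chi_zero _ (a0 h _ ((hfib P _).1 Q.2)), zero_mul, sub_zero, inv_one]
  · obtain ⟨Q₁, Q₂, hne, hT, b1, b2⟩ := a1 h
    have h3 := key {Q₁, Q₂} (by rw [hT, coe_pair])
    have e : ∀ Q : HeightOneSpectrum (𝓞 E), Ideal.absNorm Q.asIdeal = Ideal.absNorm P.asIdeal →
        f Q = (1 - (1 : DirichletCharacter ℂ 3) (Ideal.absNorm P.asIdeal : ZMod 3) *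
          (Ideal.absNorm P.asIdeal : ℂ) ^ (-s))⁻¹ := fun Q hQ => by rw [← hf, ← hQ]
    rw [prod_pair hne, e _ b1, e _ b2] at h3
    rw [chi3_one h]
    nth_rewrite 2 [one_apply (by omega)] at h3
    exact h3
  · obtain ⟨Q, hT, b1⟩ := a2 h
    have h3 := key {Q} (by rw [hT, coe_singleton])
    have e : f Q = (1 - (1 : DirichletCharacter ℂ 3) (Ideal.absNorm P.asIdeal : ZMod 3) *
        (Ideal.absNorm P.asIdeal : ℂ) ^ (-s))⁻¹ * (1 - chi3 (Ideal.absNorm P.asIdeal : ZMod 3) *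
          (Ideal.absNorm P.asIdeal : ℂ) ^ (-s))⁻¹ := by
      rw [← hf]
      simp only
      rw [b1, chi3_two h, one_apply (n := Ideal.absNorm P.asIdeal) (by omega),
        one_apply (by rw [Nat.pow_mod, h]; norm_num), ← mul_inv, sq, Nat.cast_mul,
        Complex.natCast_mul_natCast_cpow]
      congr 1
      ring
    rw [prod_singleton, e] at h3
    exact h3

end Desc

open Desc in
theorem zf_of_mobAll (h : MobAll) (F : Type) [Field F] [NumberField F] [IsTotallyComplex F] :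
    ZF F := by
  by_cases hω : ∃ ω : F, ω ^ 2 + ω + 1 = 0
  · exact zf_of_mob (h F hω)
  have hF : ∀ x : F, x ^ 2 + x + 1 ≠ 0 := not_exists.1 hω
  obtain ⟨E, _, _, _, ω, h2, hω'⟩ := exists_quad hF
  have := isTotallyComplex_of_om ⟨ω, hω'⟩
  have hE := zf_of_mob (h E ⟨ω, hω'⟩)
  obtain ⟨C, -, hZ⟩ := exists_Z
  obtain ⟨ZE, hZE, -⟩ := hZ E
  obtain ⟨Z₀, hZ₀, h1, -⟩ := hZ F
  obtain ⟨L, hL⟩ := exists_Z_twist (F := F) three_ne_zero chi3
  obtain ⟨A, hA, hA0, hA1⟩ := remove3 E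
  obtain ⟨B, hB, -, hB1⟩ := remove3 F
  intro Z hZ' s a1 a2 h0
  have hs : s ∈ Str := ⟨by linarith, a2⟩
  have hO : IsOpen Str := (isOpen_lt continuous_const Complex.continuous_re).inter
    (isOpen_lt Complex.continuous_re continuous_const)
  have hC : Convex ℝ Str := (convex_halfSpace_re_gt 0).inter (convex_halfSpace_re_lt 4)
  have hO' : IsOpen {s : ℂ | 1 < s.re ∧ s.re < 4} :=
    (isOpen_lt continuous_const Complex.continuous_re).inter
      (isOpen_lt Complex.continuous_re continuous_const)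
  have key : Set.EqOn (fun s => (s - 1) * ZE s * A s) (fun s => Z s * B s * L s) Str :=
    ((((differentiableOn_id.sub_const 1).mul hZE.1).mul hA.differentiableOn).analyticOnNhd
      hO).eqOn_of_preconnected_of_eventuallyEq
      (((hZ'.1.mul hB.differentiableOn).mul hL.1).analyticOnNhd hO) hC.isPreconnected
      (z₀ := 2) ⟨by norm_num, by norm_num⟩
      (eventually_of_mem (hO'.mem_nhds ⟨by norm_num, by norm_num⟩) fun w hw => by
        have e := ident h2 hω' hF hw.1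
        rw [hA1 w hw.1, hB1 w hw.1] at e
        simp only [Pi.mul_apply, id]
        rw [hZE.2 w hw.1 hw.2, hZ'.2 w hw.1 hw.2, hL.2 w hw.1 hw.2]
        linear_combination (w - 1) ^ 2 * e)
  have h3 := key hs
  simp only [h0, zero_mul] at h3
  rcases eq_or_ne s 1 with rfl | h4
  · exact h1 ((hZ₀.unique hZ' hs).trans h0)
  · exact mul_ne_zero (mul_ne_zero (sub_ne_zero.2 h4) (hE ZE hZE s a1 a2)) (hA0 s hs.1) h3

end Crest.Agent.R27
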