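import Crest.Agent.R27.Iface

/-! Row 27: Euler products over prime ideals. -/

set_option autoImplicit false

namespace Crest.Agent.R27

open Finset Filter NumberField

open IsDedekindDomain

variable {F : Type} [Field F] [NumberField F]

namespace Euler

open Classical in
/-- sieving out the primes of `S` -/
theorem sieve (f : Ideal (𝓞 F) →*₀ ℂ) (hf : Summable fun I => ‖f I‖)
    (S : Finset (HeightOneSpectrum (𝓞 F))) :
    (∏ P ∈ S, (1 - f P.asIdeal)) * ∑' I, f I =
      ∑' I, if ∀ P ∈ S, ¬ P.asIdeal ∣ I then f I else 0 := by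
  induction S using Finset.induction_on with
  | empty => simp
  | insert P S hP ih =>
    rw [prod_insert hP, mul_assoc, ih]
    set g : Ideal (𝓞 F) → ℂ := fun I => if ∀ P ∈ S, ¬ P.asIdeal ∣ I then f I else 0 with hg
    have h0 : Summable g := .of_norm_bounded hf fun I => by
      rw [hg]; dsimp only; split_ifs <;> simp
    have h1 : Summable fun I => if P.asIdeal ∣ I then g I else 0 :=
      .of_norm_bounded h0.norm fun I => by split_ifs <;> simp
    have h2 : f P.asIdeal * ∑' I, g I = ∑' I, if P.asIdeal ∣ I then g I else 0 := by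
      rw [← tsum_mul_left, ← (mul_right_injective₀ (M₀ := Ideal (𝓞 F)) P.ne_bot).tsum_eq
        (f := fun I => if P.asIdeal ∣ I then g I else 0)]
      · refine tsum_congr fun J => ?_
        rw [if_pos (dvd_mul_right _ _), hg]
        dsimp only
        rw [mul_ite, mul_zero, map_mul]
        refine if_congr (forall₂_congr fun Q hQ => not_congr ?_) rfl rfl
        rw [Q.prime.dvd_mul, or_iff_right fun h => hP ?_]
        rwa [← HeightOneSpectrum.ext (P.isMaximal.eq_of_le Q.isPrime.ne_top
          (Ideal.le_of_dvd h))] at hQ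
      · intro I hI
        by_contra hc
        exact hI (if_neg fun ⟨J, hJ⟩ => hc ⟨J, hJ.symm⟩)
    rw [sub_mul, one_mul, h2, ← h0.tsum_sub h1]
    refine tsum_congr fun I => ?_
    rw [hg]
    by_cases h : P.asIdeal ∣ I <;> simp [h]

open Classical in
theorem tendsto_sieve (f : Ideal (𝓞 F) →*₀ ℂ) (hf : Summable fun I => ‖f I‖) :
    Tendsto (fun S : Finset (HeightOneSpectrum (𝓞 F)) =>
      ∑' I, if ∀ P ∈ S, ¬ P.asIdeal ∣ I then f I else 0) atTop (nhds 1) := by
  have h := tendsto_tsum_of_dominated_convergence (𝓕 := atTop)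
    (f := fun (S : Finset (HeightOneSpectrum (𝓞 F))) I =>
      if ∀ P ∈ S, ¬ P.asIdeal ∣ I then f I else 0)
    (g := fun I => if I = 1 then (1 : ℂ) else 0) hf (fun I => ?_)
    (Eventually.of_forall fun S I => by split_ifs <;> simp)
  · rwa [tsum_ite_eq] at h
  · refine tendsto_const_nhds.congr' ?_
    by_cases h1 : I = 1
    · refine Eventually.of_forall fun S => ?_
      rw [if_pos h1, h1]
      dsimp only
      rw [if_pos fun P _ => P.prime.not_dvd_one, map_one]
    rw [if_neg h1]
    by_cases h0 : I = 0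
    · exact Eventually.of_forall fun S => by simp only [h0, map_zero, ite_self]
    obtain ⟨Q, hQ, hI⟩ := I.exists_le_maximal (by rwa [Ideal.one_eq_top] at h1)
    filter_upwards [eventually_ge_atTop {(⟨Q, hQ.isPrime, fun h => h0 (le_bot_iff.1 (h ▸ hI))⟩ :
      HeightOneSpectrum (𝓞 F))}] with S hS
    exact (if_neg fun h => h _ (hS (mem_singleton_self _)) (Ideal.dvd_iff_le.2 hI)).symm

end Euler

/-- Euler product of a completely multiplicative function on the ideals. -/
theorem euler_ideal (f : Ideal (𝓞 F) →*₀ ℂ) (hf : Summable fun I => ‖f I‖) :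
    (∀ P : HeightOneSpectrum (𝓞 F), ‖f P.asIdeal‖ < 1) ∧
      HasProd (fun P : HeightOneSpectrum (𝓞 F) => (1 - f P.asIdeal)⁻¹) (∑' I, f I) := by
  refine ⟨fun P => ?_, ?_⟩
  · have h := hf.of_norm.comp_injective
      (Ideal.pow_right_strictAnti _ P.ne_bot P.isPrime.ne_top).injective
    exact summable_geometric_iff_norm_lt_one.1 (h.congr fun k => map_pow f _ k)
  · have h := Euler.tendsto_sieve f hf
    simp only [← Euler.sieve f hf] at h
    have h0 : ∑' I, f I ≠ 0 := fun h0 => by
      simp only [h0, mul_zero] at h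
      exact zero_ne_one (tendsto_nhds_unique tendsto_const_nhds h)
    have h1 := (h.inv₀ one_ne_zero).mul_const (∑' I, f I)
    rw [inv_one, one_mul] at h1
    refine h1.congr fun S => ?_
    rw [mul_inv, inv_mul_cancel_right₀ h0, prod_inv_distrib]

end Crest.Agent.R27
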