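import Crest.Agent.R27.KumA

/-! Row 27: primes which split completely in `ℚ(ζ, α)`. -/

set_option autoImplicit false

namespace Crest.Agent.R27

open Finset Filter NumberField

variable {F : Type} [Field F] [NumberField F]

namespace KumC

open scoped Pointwise

theorem eq_of_pow_eq {O : Type} [CommRing O] [IsDomain O] {P : Ideal O} (hP : P.IsPrime) {n : ℕ}
    {x y : O} (h : x ^ n = y ^ n) (hxy : x - y ∈ P) (hn : (n : O) ∉ P) (hy : y ∉ P) : x = y := by
  by_contra hne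
  have h1 := geom_sum₂_mul x y n
  rw [h, sub_self, mul_eq_zero, sub_eq_zero] at h1
  have h2 := congrArg (Ideal.Quotient.mk P) (h1.resolve_right hne)
  simp only [map_sum, map_mul, map_pow, Ideal.Quotient.eq.2 hxy, map_zero] at h2
  rw [geom_sum₂_self, ← map_natCast (Ideal.Quotient.mk P), ← map_pow, ← map_mul,
    Ideal.Quotient.eq_zero_iff_mem] at h2
  exact (hP.mem_or_mem h2).elim hn fun h3 => hy (hP.mem_of_pow_mem _ h3)

omit [NumberField F] in
theorem under_eq {p : ℕ} (hp : p.Prime) {P : Ideal (𝓞 F)} (hP : P.IsPrime)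
    (h : (p : 𝓞 F) ∈ P) : P.under ℤ = Ideal.span {(p : ℤ)} := by
  have := Fact.mk hp
  refine ((Int.ideal_span_isMaximal_of_prime p).eq_of_le (Ideal.IsPrime.under ℤ P).ne_top ?_).symm
  rw [Ideal.span_singleton_le_iff_mem, Ideal.under, Ideal.mem_comap, map_natCast]
  exact h

omit [NumberField F] in
theorem int_mem_iff {p : ℕ} (hp : p.Prime) {P : Ideal (𝓞 F)} (hP : P.IsPrime)
    (h : (p : 𝓞 F) ∈ P) (n : ℤ) : (n : 𝓞 F) ∈ P ↔ (p : ℤ) ∣ n := by
  rw [← Ideal.mem_span_singleton, ← under_eq hp hP h, Ideal.under, Ideal.mem_comap, eq_intCast]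

/-- If the Frobenius is trivial modulo `P`, the residue field is the prime field. -/
theorem residue {p : ℕ} (hp : p.Prime) {P : Ideal (𝓞 F)} (hP : P.IsPrime)
    (h : (p : 𝓞 F) ∈ P) (hx : ∀ x : 𝓞 F, x - x ^ p ∈ P) :
    Ideal.absNorm P = p ∧ ∀ x : 𝓞 F, ∃ n : ℤ, x - n ∈ P := by
  classical
  have := Fact.mk hp
  have hP0 : P ≠ ⊥ := by
    rintro rfl
    exact hp.ne_zero (by simpa using h)
  have := Ideal.finiteQuotientOfFreeOfNeBot P hP0
  have := Fintype.ofFinite (𝓞 F ⧸ P)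
  have := hP.isMaximal hP0
  let := Ideal.Quotient.field P
  have h1 : Nat.card (𝓞 F ⧸ P) ≤ Nat.card (ZMod p) := by
    rw [Nat.card_zmod, Nat.card_eq_fintype_card, ← Finset.card_univ,
      ← FiniteField.X_pow_card_sub_X_natDegree_eq (𝓞 F ⧸ P) hp.one_lt]
    refine Polynomial.card_le_degree_of_subset_roots fun y _ => ?_
    obtain ⟨x, rfl⟩ := Ideal.Quotient.mk_surjective y
    rw [Polynomial.mem_roots (FiniteField.X_pow_card_sub_X_ne_zero _ hp.one_lt)]
    simp only [Polynomial.IsRoot.def, Polynomial.eval_sub, Polynomial.eval_pow, Polynomial.eval_X]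
    rw [← map_pow, ← Ideal.Quotient.eq.2 (hx x), sub_self]
  have : CharP (𝓞 F ⧸ P) p := (CharP.charP_iff_prime_eq_zero hp).2 (by
    rw [← map_natCast (Ideal.Quotient.mk P), Ideal.Quotient.eq_zero_iff_mem]
    exact h)
  have h2 := (ZMod.castHom dvd_rfl (𝓞 F ⧸ P)).injective.bijective_of_nat_card_le h1
  refine ⟨?_, fun x => ?_⟩
  · rw [Ideal.absNorm_apply, Submodule.cardQuot_apply, ← Nat.card_eq_of_bijective _ h2,
      Nat.card_zmod]
  · obtain ⟨y, hy⟩ := h2.2 (Ideal.Quotient.mk P x)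
    obtain ⟨n, rfl⟩ := ZMod.intCast_surjective y
    refine ⟨n, Ideal.Quotient.eq.1 ?_⟩
    rw [← hy, map_intCast, map_intCast]

end KumC

open KumC in
open scoped Pointwise in
theorem split_kum {m l p : ℕ} {a : ℤ} {ζ α : F} (hl : l ∣ m) (hζ : IsPrimitiveRoot ζ m)
    (hα : α ^ l = a) (hgen : IntermediateField.adjoin ℚ {ζ, α} = ⊤) (hp : p.Prime)
    (hm : m ∣ p - 1) (ha : (a : ZMod p) ^ ((p - 1) / l) = 1) :
    ∃ S : Finset (Ideal (𝓞 F)), S.card = Module.finrank ℚ F ∧ ∀ P ∈ S, Ideal.absNorm P = p := by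
  classical
  have := Fact.mk hp
  have hp1 : 0 < p - 1 := Nat.sub_pos_of_lt hp.one_lt
  have hm0 : m ≠ 0 := (Nat.pos_of_dvd_of_pos hm hp1).ne'
  have hl0 : l ≠ 0 := (Nat.pos_of_dvd_of_pos (hl.trans hm) hp1).ne'
  have := isGalois_kum hm0 hl hζ hα hgen
  obtain ⟨z, hz⟩ : ∃ z : 𝓞 F, (z : F) = ζ := ⟨⟨ζ, hζ.isIntegral (Nat.pos_of_ne_zero hm0)⟩, rfl⟩
  obtain ⟨A, hA⟩ : ∃ A : 𝓞 F, (A : F) = α := ⟨⟨α, IsIntegral.of_pow (Nat.pos_of_ne_zero hl0)
    (hα ▸ isIntegral_algebraMap (x := a))⟩, rfl⟩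
  have hz1 : z ^ m = 1 := RingOfIntegers.ext (by simpa [hz] using hζ.pow_eq_one)
  have hA1 : A ^ l = a := RingOfIntegers.ext (by simpa [hA] using hα)
  obtain ⟨k, hk⟩ := hl.trans hm
  have hk0 : k ≠ 0 := by
    rintro rfl
    omega
  rw [hk, Nat.mul_div_cancel_left _ (Nat.pos_of_ne_zero hl0)] at ha
  have ha1 : (p : ℤ) ∣ a ^ k - 1 := by
    rw [← ZMod.intCast_zmod_eq_zero_iff_dvd]
    push_cast
    rw [ha, sub_self]
  have key : ∀ P : Ideal (𝓞 F), P.IsPrime → (p : 𝓞 F) ∈ P → ∀ σ : Gal(F/ℚ),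
      σ • z - z ∈ P → σ • A - A ∈ P → σ = 1 := by
    intro P hP h σ h1 h2
    have h3 : ∀ n : ℕ, n ∣ p - 1 → (n : 𝓞 F) ∉ P := fun n hn h4 => by
      have h5 := (int_mem_iff hp hP h n).1 (by simpa using h4)
      have h6 := Nat.le_of_dvd hp1 ((Int.natCast_dvd_natCast.1 h5).trans hn)
      omega
    have h4 : σ • z = z := eq_of_pow_eq hP (by rw [← smul_pow', hz1, smul_one]) h1 (h3 m hm)
      fun h5 => hP.ne_top ((Ideal.eq_top_iff_one P).2 (hz1 ▸ P.pow_mem_of_mem h5 m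
        (Nat.pos_of_ne_zero hm0)))
    have h5 : σ • A = A := eq_of_pow_eq hP (by
        rw [← smul_pow', hA1]
        exact map_intCast (MulSemiringAction.toRingHom _ _ σ) a) h2 (h3 l ⟨k, hk⟩)
      fun h5 => by
        have h6 := P.pow_mem_of_mem h5 l (Nat.pos_of_ne_zero hl0)
        rw [hA1, int_mem_iff hp hP h] at h6
        have h7 := dvd_sub (dvd_pow h6 hk0) ha1
        rw [sub_sub_cancel] at h7
        exact hp.one_lt.ne' (by exact_mod_cast Int.eq_one_of_dvd_one (Int.natCast_nonneg p) h7)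
    have h6 : ∀ x ∈ IntermediateField.adjoin ℚ {ζ, α}, σ x = x := by
      intro x hx
      induction hx using IntermediateField.adjoin_induction with
      | mem x hx =>
        rcases hx with rfl | rfl
        · rw [← hz]
          exact congrArg (fun y : 𝓞 F => (y : F)) h4
        · rw [← hA]
          exact congrArg (fun y : 𝓞 F => (y : F)) h5
      | algebraMap x => exact σ.commutes x
      | add x y _ _ hx hy => rw [map_add, hx, hy]
      | inv x _ hx => rw [map_inv₀, hx]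
      | mul x y _ _ hx hy => rw [map_mul, hx, hy]
    exact AlgEquiv.ext fun x => h6 x (hgen ▸ IntermediateField.mem_top)
  have main : ∀ P : Ideal (𝓞 F), P.IsPrime → (p : 𝓞 F) ∈ P →
      Ideal.absNorm P = p ∧ ∀ x : 𝓞 F, ∃ n : ℤ, x - n ∈ P := by
    intro P hP h
    have hP0 : P ≠ ⊥ := by
      rintro rfl
      exact hp.ne_zero (by simpa using h)
    have := Ideal.finiteQuotientOfFreeOfNeBot P hP0
    obtain ⟨σ, hσ⟩ := IsArithFrobAt.exists_of_isInvariant ℤ Gal(F/ℚ) P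
    have h1 : ∀ x : 𝓞 F, σ • x - x ^ p ∈ P := fun x => by
      have h2 := hσ x
      rwa [under_eq hp hP h, Int.card_ideal_quot] at h2
    have hpp : p = p - 1 + 1 := by omega
    have h2 : σ = 1 := by
      refine key P hP h σ ?_ ?_
      · obtain ⟨j, hj⟩ := hm
        have h3 := h1 z
        rwa [hpp, hj, pow_succ, pow_mul, hz1, one_pow, one_mul] at h3
      · have h3 := h1 A
        rw [hpp, hk, pow_succ, pow_mul, hA1] at h3
        have h4 := (int_mem_iff hp hP h _).2 ha1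
        push_cast at h4
        convert P.add_mem h3 (P.mul_mem_right A h4) using 1
        ring
    refine residue hp hP h fun x => ?_
    simpa [h2] using h1 x
  obtain ⟨P, hP, hP'⟩ := Ideal.exists_maximal_ideal_liesOver_of_isIntegral (S := 𝓞 F)
    (Ideal.span {(p : ℤ)})
  have hpP : (p : 𝓞 F) ∈ P := by
    have h1 : (p : ℤ) ∈ P.under ℤ := hP'.over ▸ Ideal.mem_span_singleton_self _
    simpa [Ideal.under, Ideal.mem_comap] using h1
  have hfix : ∀ (σ : Gal(F/ℚ)) (n : ℤ), σ • (n : 𝓞 F) = n := fun σ n =>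
    map_intCast (MulSemiringAction.toRingHom _ _ σ) n
  refine ⟨Finset.univ.image fun σ : Gal(F/ℚ) => σ • P, ?_, fun Q hQ => ?_⟩
  · rw [Finset.card_image_of_injective, Finset.card_univ, ← Nat.card_eq_fintype_card,
      IsGalois.card_aut_eq_finrank]
    intro σ τ hστ
    have h1 : (τ⁻¹ * σ) • P = P := by
      rw [mul_smul, show σ • P = τ • P from hστ, inv_smul_smul]
    have h2 : ∀ x : 𝓞 F, (τ⁻¹ * σ) • x - x ∈ P := fun x => by
      obtain ⟨n, hn⟩ := (main P hP.isPrime hpP).2 x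
      have h3 := Ideal.smul_mem_pointwise_smul (τ⁻¹ * σ) _ _ hn
      rw [h1, smul_sub, hfix] at h3
      simpa using P.sub_mem h3 hn
    exact (inv_mul_eq_one.1 (key P hP.isPrime hpP _ (h2 z) (h2 A))).symm
  · obtain ⟨σ, -, rfl⟩ := Finset.mem_image.1 hQ
    refine (main _ inferInstance ?_).1
    have h1 := Ideal.smul_mem_pointwise_smul σ _ _ hpP
    have h2 := hfix σ p
    rw [Int.cast_natCast] at h2
    rwa [h2] at h1

end Crest.Agent.R27
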