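import Crest.Agent.R27.KumB
import Crest.Agent.R27.KumC

/-! Row 27: the Kummer statement. -/

set_option autoImplicit false

namespace Crest.Agent.R27

open Finset Filter NumberField

theorem kum : KumStmt := by
  intro a ha
  have ha0 : a ≠ 0 := by rintro rfl; simp at ha
  have ha1 : (2 : ℝ) ≤ |(a : ℝ)| := by exact_mod_cast ha
  refine ⟨5 + 2 * |(a : ℝ)|, max 3 a.natAbs, by positivity, fun q hq hq0 => ?_⟩
  have h3 : 3 ≤ q := (le_max_left _ _).trans hq0
  have haq : |a| < 2 ^ q := by
    have h1 : a.natAbs < 2 ^ q := ((le_max_right _ _).trans hq0).trans_lt Nat.lt_two_pow_self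
    rw [← Int.natCast_natAbs]
    exact_mod_cast h1
  obtain ⟨F, _, _, ζ, α, hζ, hα, hgen⟩ := exists_kum hq.ne_zero a
  obtain ⟨-, h5⟩ := log_discr_kum hq.ne_zero hq.ne_zero ha0 hζ.pow_eq_one hα hgen
  have h3' : (3 : ℝ) ≤ q := by exact_mod_cast h3
  refine ⟨F, inferInstance, inferInstance, isTotallyComplex_of_root (by omega) hζ, ?_, ?_,
    fun p hp hqp hap => split_kum dvd_rfl hζ hα hgen hp hqp hap⟩
  · have h1 := le_finrank_kum hq ha haq hζ hα
    have h2 : (q : ℝ) * (q - 1) ≤ Module.finrank ℚ F := by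
      have : ((q * (q - 1) : ℕ) : ℝ) ≤ Module.finrank ℚ F := by exact_mod_cast h1
      rwa [Nat.cast_mul, Nat.cast_sub hq.one_le, Nat.cast_one] at this
    nlinarith
  · have hn : (0 : ℝ) ≤ Module.finrank ℚ F := by positivity
    have h1 : Real.log (q * q * |(a : ℝ)|) ≤ 2 * q + |(a : ℝ)| := by
      rw [Real.log_mul (by positivity) (by positivity), Real.log_mul (by positivity) (by positivity)]
      have e1 := Real.log_le_self (x := q) (by positivity)
      have e2 := Real.log_le_self (abs_nonneg (a : ℝ))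
      linarith
    have h2 : 1 + 2 * (2 * q + |(a : ℝ)|) ≤ (5 + 2 * |(a : ℝ)|) * q := by nlinarith
    calc _ ≤ (Module.finrank ℚ F : ℝ) + 2 * Module.finrank ℚ F * (2 * q + |(a : ℝ)|) := by
          have := mul_le_mul_of_nonneg_left h1 (show 0 ≤ 2 * (Module.finrank ℚ F : ℝ) by positivity)
          linarith
      _ = (1 + 2 * (2 * q + |(a : ℝ)|)) * Module.finrank ℚ F := by ring
      _ ≤ _ := by gcongr

end Crest.Agent.R27
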