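import Crest.Agent.R27.Iface

/-! Row 27: the final count. -/

set_option autoImplicit false

namespace Crest.Agent.R27

open Finset Filter NumberField

namespace Main

theorem trich {a : ℤ} {p w K Q : ℕ} (hp : p.Prime) (h2 : p ≠ 2) (hJ : jacobiSym a p = -1)
    (hw : ∀ q : ℕ, q.Prime → q ≠ 2 → q ≤ w → ¬ q ∣ p - 1) (hQ : Q.Prime) (hQp : Q ∣ p - 1)
    (hK : (p - 1) / Q ≤ K) :
    ¬ (p : ℤ) ∣ a ∧ (orderOf (a : ZMod p) = p - 1 ∨
      (∃ k : ℕ, 1 ≤ k ∧ k ≤ K ∧ (a : ZMod p) ^ k = 1) ∨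
      ∃ q ∈ (Ioc w K).filter Nat.Prime, q ∣ p - 1 ∧ (a : ZMod p) ^ ((p - 1) / q) = 1) := by
  have := Fact.mk hp
  have hns := ZMod.nonsquare_iff_jacobiSym_eq_neg_one.1 hJ
  have h0 : (a : ZMod p) ≠ 0 := fun h => hns (h ▸ IsSquare.zero)
  have hp1 : 0 < p - 1 := Nat.sub_pos_of_lt hp.one_lt
  have hk : 1 ≤ (p - 1) / Q := Nat.div_pos (Nat.le_of_dvd hp1 hQp) hQ.pos
  refine ⟨fun h => h0 ((ZMod.intCast_zmod_eq_zero_iff_dvd a p).2 h), ?_⟩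
  by_contra hc
  simp only [not_or, not_exists, not_and] at hc
  refine hc.1 (orderOf_eq_of_pow_and_pow_div_prime hp1 (ZMod.pow_card_sub_one_eq_one h0)
    fun q hq hqp h1 => ?_)
  rcases eq_or_ne q 2 with rfl | hq2
  · have := hp.eq_two_or_odd.resolve_left h2
    exact hns ((ZMod.euler_criterion p h0).2 (by rwa [show p / 2 = (p - 1) / 2 by omega]))
  rcases eq_or_ne q Q with rfl | hqQ
  · exact hc.2.1 _ hk hK h1
  · have h3 : q ∣ (p - 1) / Q := (Nat.dvd_div_iff_mul_dvd hQp).2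
      (((Nat.coprime_primes hQ hq).2 hqQ.symm).mul_dvd_of_dvd_of_dvd hQp hqp)
    exact hc.2.2 q (mem_filter.2 ⟨mem_Ioc.2 ⟨not_le.1 fun h => hw q hq hq2 h hqp,
      (Nat.le_of_dvd hk h3).trans hK⟩, hq⟩) hqp h1

theorem cheb_sum {a : ℤ} {C : ℝ} {w K N : ℕ} (hC : 0 < C) (hw : w ≠ 0) (hN : 2 ≤ N)
    (h : ∀ q : ℕ, q.Prime → w < q → ((spl a q N).card : ℝ) ≤
      C * (N / ((q : ℝ) ^ 2 * Real.log N) + q * (N : ℝ) ^ (23 / 24 : ℝ))) :
    ∑ q ∈ (Ioc w K).filter Nat.Prime, ((spl a q N).card : ℝ) ≤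
      C * (N / Real.log N * (w : ℝ)⁻¹ + (K : ℝ) ^ 2 * (N : ℝ) ^ (23 / 24 : ℝ)) := by
  have hl : 0 < Real.log N := Real.log_pos (by exact_mod_cast hN)
  have h1 : ∑ q ∈ Ioc w K, ((q : ℝ) ^ 2)⁻¹ ≤ (w : ℝ)⁻¹ := by
    rcases le_total w K with h1 | h1
    · exact (sum_Ioc_inv_sq_le_sub hw h1).trans (sub_le_self _ (by positivity))
    · rw [Ioc_eq_empty_of_le h1, sum_empty]
      positivity
  have h2 : ∑ q ∈ Ioc w K, (q : ℝ) ≤ (K : ℝ) ^ 2 := by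
    refine (sum_le_card_nsmul _ _ (K : ℝ) fun q hq => by exact_mod_cast (mem_Ioc.1 hq).2).trans ?_
    rw [Nat.card_Ioc, nsmul_eq_mul, sq]
    gcongr
    exact Nat.sub_le _ _
  calc _ ≤ ∑ q ∈ (Ioc w K).filter Nat.Prime,
        C * (N / ((q : ℝ) ^ 2 * Real.log N) + q * (N : ℝ) ^ (23 / 24 : ℝ)) :=
        sum_le_sum fun q hq => h q (mem_filter.1 hq).2 (mem_Ioc.1 (mem_filter.1 hq).1).1
    _ ≤ ∑ q ∈ Ioc w K, C * (N / ((q : ℝ) ^ 2 * Real.log N) + q * (N : ℝ) ^ (23 / 24 : ℝ)) :=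
        sum_le_sum_of_subset_of_nonneg (filter_subset _ _) fun _ _ _ => by positivity
    _ = C * (N / Real.log N * ∑ q ∈ Ioc w K, ((q : ℝ) ^ 2)⁻¹ +
        (∑ q ∈ Ioc w K, (q : ℝ)) * (N : ℝ) ^ (23 / 24 : ℝ)) := by
        rw [← mul_sum, sum_add_distrib, mul_sum, sum_mul]
        congr 2
        exact sum_congr rfl fun q _ => by ring
    _ ≤ _ := by gcongr

theorem small {B ε : ℝ} (hB : 0 < B) (hε : 0 < ε) : ∀ᶠ m : ℕ in atTop,
    B * ((m : ℝ) ^ (1 / 100 : ℝ)) ^ 2 * (m : ℝ) ^ (23 / 24 : ℝ) ≤ ε * (m / Real.log m) := by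
  have h := (isLittleO_log_rpow_atTop (r := 1 / 100) (by norm_num)).def (c := ε / B) (by positivity)
  filter_upwards [tendsto_natCast_atTop_atTop.eventually h, eventually_ge_atTop 2] with m h1 h2
  have hm : (1 : ℝ) < m := by exact_mod_cast h2
  have hl := Real.log_pos hm
  rw [Real.norm_of_nonneg hl.le, Real.norm_of_nonneg (by positivity)] at h1
  have h3 : ((m : ℝ) ^ (1 / 100 : ℝ)) ^ 3 * (m : ℝ) ^ (23 / 24 : ℝ) ≤ m := by
    rw [← Real.rpow_natCast, ← Real.rpow_mul (by linarith), ← Real.rpow_add (by linarith)]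
    exact Real.rpow_le_self_of_one_le hm.le (by norm_num)
  rw [← mul_div_assoc, le_div_iff₀ hl]
  calc _ ≤ B * ((m : ℝ) ^ (1 / 100 : ℝ)) ^ 2 * (m : ℝ) ^ (23 / 24 : ℝ) *
        (ε / B * (m : ℝ) ^ (1 / 100 : ℝ)) := by gcongr
    _ = ε * (((m : ℝ) ^ (1 / 100 : ℝ)) ^ 3 * (m : ℝ) ^ (23 / 24 : ℝ)) := by field_simp
    _ ≤ _ := by gcongr

open Classical in
/-- the primes of `(2m, 3m]` with the primitive root `a` -/
theorem main (h1 : ClsStmt) (h2 : CrtStmt) (h3 : BigStmt) (h4 : OrdStmt) (h5 : ChebK) {a : ℤ}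
    (ha : a ≠ -1) (hsq : ¬ IsSquare a) : ∃ δ : ℝ, 0 < δ ∧ ∀ᶠ m : ℕ in atTop,
      δ * (m / Real.log m) ≤ ((Ioc (2 * m) (3 * m)).filter fun p : ℕ => p.Prime ∧ ¬ (p : ℤ) ∣ a ∧
        orderOf (a : ZMod p) = p - 1).card := by
  have ha2 : 2 ≤ |a| := by
    by_contra h
    have h0 : a = -1 ∨ a = 0 ∨ a = 1 := by
      have := abs_lt.1 (not_le.1 h)
      omega
    rcases h0 with h0 | h0 | h0
    · exact ha h0
    · exact hsq (h0 ▸ IsSquare.zero)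
    · exact hsq (h0 ▸ IsSquare.one)
  have hM₀ : 1 ≤ 4 * a.natAbs := by
    have := ha2
    rw [Int.abs_eq_natAbs] at this
    omega
  obtain ⟨r₀, hr₀, hJ, hl⟩ := h1 a ha hsq
  obtain ⟨c, hc, h3⟩ := h3
  obtain ⟨C, q₀, hC, h5⟩ := h5 a ha2
  have hφ : (0 : ℝ) < (4 * a.natAbs).totient := by exact_mod_cast Nat.totient_pos.2 hM₀
  obtain ⟨k, hk1, hk2⟩ : ∃ k : ℕ, q₀ ≤ k ∧ (16 * C * (4 * a.natAbs).totient / c) ^ 2 ≤ k :=
    ⟨max q₀ ⌈(16 * C * (4 * a.natAbs).totient / c) ^ 2⌉₊, le_max_left _ _,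
      (Nat.le_ceil _).trans (by exact_mod_cast le_max_right _ _)⟩
  obtain ⟨M, S, hM, hM₀M, hqM, hS, hφM⟩ := h2 (4 * a.natAbs) r₀ k hM₀ hr₀
  obtain ⟨s, hs, hs2⟩ : ∃ s : ℝ, 0 < s ∧ s ^ 2 = 4 * k + 1 :=
    ⟨Real.sqrt (4 * k + 1), by positivity, Real.sq_sqrt (by positivity)⟩
  have hφ' : (0 : ℝ) < M.totient := by exact_mod_cast Nat.totient_pos.2 hM
  have b1 : (M.totient : ℝ) ≤ s * (S.card * (4 * a.natAbs).totient) := by
    refine (sq_le_sq₀ (by positivity) (by positivity)).1 ?_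
    rw [mul_pow, hs2]
    exact_mod_cast hφM
  have b2 : 16 * C * (4 * a.natAbs).totient / c ≤ s :=
    (sq_le_sq₀ (by positivity) hs.le).1 (by rw [hs2]; linarith [Nat.cast_nonneg (α := ℝ) k])
  obtain ⟨δ, hδ⟩ : ∃ δ : ℝ, δ = c / ((4 * a.natAbs).totient * s) := ⟨_, rfl⟩
  have hδ0 : 0 < δ := by rw [hδ]; positivity
  have b3 : δ ≤ S.card * (c / M.totient) := by
    rw [hδ, ← mul_div_assoc, div_le_div_iff₀ (by positivity) hφ']
    nlinarith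
  have b4 : 2 * C * (((2 * k + 1 : ℕ) : ℝ))⁻¹ ≤ δ / 4 := by
    rw [div_le_iff₀ hc] at b2
    rw [hδ, ← div_eq_mul_inv, div_div, div_le_div_iff₀ (by positivity) (by positivity)]
    push_cast
    nlinarith [mul_le_mul_of_nonneg_right b2 hs.le]
  refine ⟨δ / 2, by positivity, ?_⟩
  filter_upwards [(eventually_all_finset S).2 fun r hr => h3 M r hM (hS r hr).2.1,
    small (B := 9 * (a.natAbs + 2 * C)) (ε := δ / 4) (by positivity) (by positivity),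
    eventually_ge_atTop 2] with m c1 c2 c3
  have hm : (1 : ℝ) < m := by exact_mod_cast c3
  have hlm := Real.log_pos hm
  obtain ⟨K, hK⟩ : ∃ K : ℕ, K = ⌊3 * (m : ℝ) ^ (1 / 100 : ℝ)⌋₊ := ⟨_, rfl⟩
  have hK' : (K : ℝ) ≤ 3 * (m : ℝ) ^ (1 / 100 : ℝ) := hK ▸ Nat.floor_le (by positivity)
  generalize hG : ((Ioc (2 * m) (3 * m)).filter fun p : ℕ => p.Prime ∧ ¬ (p : ℤ) ∣ a ∧
    orderOf (a : ZMod p) = p - 1) = G
  have d1 : S.biUnion (fun r => big M r m) ⊆ G ∪ ((Ioc (2 * m) (3 * m)).filter fun p : ℕ =>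
      p.Prime ∧ ∃ k : ℕ, 1 ≤ k ∧ k ≤ K ∧ (a : ZMod p) ^ k = 1) ∪
      ((Ioc (2 * k + 1) K).filter Nat.Prime).biUnion fun q => spl a q (2 * m) := by
    intro p hp
    obtain ⟨r, hr, hp⟩ := mem_biUnion.1 hp
    obtain ⟨e1, e2, e3, Q, e4, e5, e6⟩ := mem_filter.1 hp
    obtain ⟨e7, e8⟩ := mem_Ioc.1 e1
    obtain ⟨-, -, f1, f2⟩ := hS r hr
    have f3 : p ≡ r₀ [MOD 4 * a.natAbs] := (e3.of_dvd hM₀M).trans f1
    have f4 : p ≠ 2 := by omega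
    have f5 : jacobiSym a p = -1 := by
      rw [jacobiSym.mod_right a (e2.odd_of_ne_two f4), f3, ← jacobiSym.mod_right a
        (Nat.coprime_two_right.1 (hr₀.coprime_dvd_right ⟨2 * a.natAbs, by ring⟩)), hJ]
    have f6 : (p - 1) / Q ≤ K := by
      rw [hK]
      refine Nat.le_floor (Nat.cast_div_le.trans ?_)
      have g1 : ((p - 1 : ℕ) : ℝ) ≤ 3 * m := by exact_mod_cast (by omega : p - 1 ≤ 3 * m)
      have g2 : (m : ℝ) ^ (1 / 100 : ℝ) * (m : ℝ) ^ (99 / 100 : ℝ) = m := by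
        rw [← Real.rpow_add (by linarith)]
        norm_num
      rw [div_le_iff₀ (by exact_mod_cast e4.pos)]
      nlinarith [Real.rpow_pos_of_pos (by linarith : (0 : ℝ) < m) (1 / 100)]
    obtain ⟨g1, g2⟩ := trich (w := 2 * k + 1) e2 f4 f5 (fun q hq hq2 hqw hqp => by
      have g1 : p ≡ 1 [MOD q] := ((Nat.modEq_iff_dvd' e2.one_le).2 hqp).symm
      by_cases g2 : q ∣ 4 * a.natAbs
      · refine hl q hq hq2 (((Nat.Prime.dvd_mul hq).1 g2).resolve_left fun g3 => hq2 ?_)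
          ((f3.of_dvd g2).symm.trans g1)
        exact (Nat.prime_dvd_prime_iff_eq hq Nat.prime_two).1
          (hq.dvd_of_dvd_pow (show q ∣ 2 ^ 2 from g3))
      · exact f2 q hq hq2 hqw g2 ((e3.of_dvd (hqM q hq hq2 hqw)).symm.trans g1)) e4 e6 f6
    rcases g2 with g2 | g2 | ⟨q, g2, g3⟩
    · exact mem_union_left _ (mem_union_left _ (hG ▸ mem_filter.2 ⟨e1, e2, g1, g2⟩))
    · exact mem_union_left _ (mem_union_right _ (mem_filter.2 ⟨e1, e2, g2⟩))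
    · exact mem_union_right _ (mem_biUnion.2 ⟨q, g2,
        mem_filter.2 ⟨mem_Ioc.2 ⟨e7, by omega⟩, e2, g3⟩⟩)
  have d2 : δ * (m / Real.log m) ≤ ((S.biUnion fun r => big M r m).card : ℝ) := by
    rw [card_biUnion fun r hr r' hr' hne => disjoint_left.2 fun p hp hp' => hne
      (Nat.ModEq.eq_of_lt_of_lt ((mem_filter.1 hp).2.2.1.symm.trans (mem_filter.1 hp').2.2.1)
        (hS r hr).1 (hS r' hr').1), Nat.cast_sum]
    refine le_trans ?_ (card_nsmul_le_sum _ _ _ c1)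
    rw [nsmul_eq_mul, ← mul_assoc]
    gcongr
  have d3 := h4 a K _ ha2 fun p (hp : p ∈ (Ioc (2 * m) (3 * m)).filter fun p : ℕ =>
    p.Prime ∧ ∃ k : ℕ, 1 ≤ k ∧ k ≤ K ∧ (a : ZMod p) ^ k = 1) => (mem_filter.1 hp).2
  have d4 := cheb_sum (a := a) (w := 2 * k + 1) (K := K) (N := 2 * m) hC (by omega) (by omega)
    fun q hq hq' => h5 q _ hq (by omega) (by omega)
  have d5 : ((S.biUnion fun r => big M r m).card : ℝ) ≤ G.card + a.natAbs * (K : ℝ) ^ 2 +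
      ∑ q ∈ (Ioc (2 * k + 1) K).filter Nat.Prime, ((spl a q (2 * m)).card : ℝ) := by
    exact_mod_cast (card_le_card d1).trans ((card_union_le _ _).trans
      (add_le_add ((card_union_le _ _).trans (add_le_add_right d3 _)) card_biUnion_le))
  have d6 : ((2 * m : ℕ) : ℝ) / Real.log (2 * m : ℕ) ≤ 2 * (m / Real.log m) := by
    push_cast
    rw [← mul_div_assoc]
    gcongr
    linarith
  have d7 : ((2 * m : ℕ) : ℝ) ^ (23 / 24 : ℝ) ≤ 2 * (m : ℝ) ^ (23 / 24 : ℝ) := by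
    push_cast
    rw [Real.mul_rpow (by norm_num) (by linarith)]
    gcongr
    exact Real.rpow_le_self_of_one_le (by norm_num) (by norm_num)
  have d8 : 1 ≤ (m : ℝ) ^ (23 / 24 : ℝ) := Real.one_le_rpow hm.le (by norm_num)
  have d9 : (K : ℝ) ^ 2 ≤ 9 * ((m : ℝ) ^ (1 / 100 : ℝ)) ^ 2 := by
    nlinarith [Nat.cast_nonneg (α := ℝ) K]
  have e1 : C * (((2 * m : ℕ) : ℝ) / Real.log (2 * m : ℕ) * (((2 * k + 1 : ℕ) : ℝ))⁻¹) ≤
      δ / 4 * (m / Real.log m) :=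
    calc _ ≤ C * (2 * (m / Real.log m) * (((2 * k + 1 : ℕ) : ℝ))⁻¹) := by gcongr
      _ = 2 * C * (((2 * k + 1 : ℕ) : ℝ))⁻¹ * (m / Real.log m) := by ring
      _ ≤ _ := by gcongr
  have e2 : a.natAbs * (K : ℝ) ^ 2 + C * ((K : ℝ) ^ 2 * ((2 * m : ℕ) : ℝ) ^ (23 / 24 : ℝ)) ≤
      9 * (a.natAbs + 2 * C) * ((m : ℝ) ^ (1 / 100 : ℝ)) ^ 2 * (m : ℝ) ^ (23 / 24 : ℝ) :=
    calc _ = a.natAbs * (K : ℝ) ^ 2 * 1 +
          C * ((K : ℝ) ^ 2 * ((2 * m : ℕ) : ℝ) ^ (23 / 24 : ℝ)) := by ring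
      _ ≤ a.natAbs * (9 * ((m : ℝ) ^ (1 / 100 : ℝ)) ^ 2) * (m : ℝ) ^ (23 / 24 : ℝ) +
          C * (9 * ((m : ℝ) ^ (1 / 100 : ℝ)) ^ 2 * (2 * (m : ℝ) ^ (23 / 24 : ℝ))) := by gcongr
      _ = _ := by ring
  rw [mul_add] at d4
  linarith

end Main

theorem artinOf : ClsStmt → CrtStmt → BigStmt → OrdStmt → ChebK → ArtinStmt := by
  classical
  intro h1 h2 h3 h4 h5 a ha hsq
  obtain ⟨δ, hδ, h⟩ := Main.main h1 h2 h3 h4 h5 ha hsq
  obtain ⟨m₀, h⟩ := eventually_atTop.1 h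
  refine ⟨δ / 2, by positivity, 2 * m₀ + 6, by linarith [Nat.cast_nonneg (α := ℝ) m₀],
    fun x hx => ?_⟩
  have hm₀ := Nat.cast_nonneg (α := ℝ) m₀
  obtain ⟨m, hm1, hm2⟩ : ∃ m : ℕ, x / 2 ≤ m ∧ (m : ℝ) < x / 2 + 1 :=
    ⟨⌈x / 2⌉₊, Nat.le_ceil _, Nat.ceil_lt_add_one (by linarith)⟩
  have h6 := h m (by exact_mod_cast (by linarith : (m₀ : ℝ) ≤ m))
  have hl : 0 < Real.log m := Real.log_pos (by linarith)
  have hl1 : 1 ≤ Real.log x := by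
    rw [Real.le_log_iff_exp_le (by linarith)]
    linarith [Real.exp_one_lt_d9]
  have hl2 : Real.log m ≤ Real.log x ^ 2 := by
    have := Real.log_le_log (x := m) (y := x) (by linarith) (by linarith)
    nlinarith
  refine le_trans ?_ (h6.trans ?_)
  · rw [show δ / 2 * x / Real.log x ^ 2 = δ * (x / 2 / Real.log x ^ 2) by ring]
    gcongr
  · rw [← Set.ncard_coe_finset]
    refine Nat.cast_le.2 (Set.ncard_le_ncard (fun p hp => ?_)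
      ((Set.finite_Iic ⌈2 * x⌉₊).subset fun p hp => ?_))
    · obtain ⟨b1, b2, b3, b4⟩ := mem_filter.1 (mem_coe.1 hp)
      obtain ⟨b5, b6⟩ := mem_Ioc.1 b1
      have b7 : 2 * (m : ℝ) < p := by exact_mod_cast b5
      have b8 : (p : ℝ) ≤ 3 * m := by exact_mod_cast b6
      exact ⟨b2, by linarith, by linarith, b3, b4⟩
    · exact Set.mem_Iic.2 (by exact_mod_cast hp.2.2.1.le.trans (Nat.le_ceil _))

end Crest.Agent.R27
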