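import Crest.Agent.R27.Cls
import Crest.Agent.R27.Crt
import Crest.Agent.R27.Big
import Crest.Agent.R27.Main
import Crest.Agent.R27.Kum
import Crest.Agent.R27.Cheb

/-! Row 27: Artin's problem from the two inputs. -/

set_option autoImplicit false

namespace Crest.Agent.R27

theorem artin_of (h26 : MainAP) (h312 : R312.MobAll) : ArtinStmt :=
  artinOf cls crt (bigOf h26) ord (chebOf kum h312)

end Crest.Agent.R27
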