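import Crest.Agent.R27.Iface

/-! Row 27: degree and Galois property of `ℚ(ζ, α)`. -/

set_option autoImplicit false

namespace Crest.Agent.R27

open Finset Filter NumberField

variable {F : Type} [Field F] [NumberField F]

/-- The monomials span. -/
theorem span_mono {m l : ℕ} {a : ℤ} {ζ α : F} (hm : m ≠ 0) (hl : l ≠ 0) (hζ : ζ ^ m = 1)
    (hα : α ^ l = a) (hgen : IntermediateField.adjoin ℚ {ζ, α} = ⊤) :
    Submodule.span ℚ (Set.range fun ij : Fin m × Fin l => ζ ^ (ij.1 : ℕ) * α ^ (ij.2 : ℕ)) = ⊤ := by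
  set S := Submodule.span ℚ (Set.range fun ij : Fin m × Fin l => ζ ^ (ij.1 : ℕ) * α ^ (ij.2 : ℕ))
  have hmem : ∀ i j : ℕ, ζ ^ i * α ^ j ∈ S := fun i j => by
    have e : ζ ^ i * α ^ j = ((a : ℚ) ^ (j / l)) • (ζ ^ (i % m) * α ^ (j % l)) := by
      rw [← pow_eq_pow_mod i hζ, Algebra.smul_def, map_pow, map_intCast, ← hα, ← pow_mul,
        mul_left_comm, ← pow_add, Nat.div_add_mod]
    rw [e]
    exact S.smul_mem _ (Submodule.subset_span ⟨(⟨i % m, Nat.mod_lt _ (Nat.pos_of_ne_zero hm)⟩,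
      ⟨j % l, Nat.mod_lt _ (Nat.pos_of_ne_zero hl)⟩), rfl⟩)
  have h1 : Algebra.adjoin ℚ ({ζ, α} : Set F) = ⊤ := by
    rw [← IntermediateField.adjoin_toSubalgebra_of_isAlgebraic
      (fun x _ => Algebra.IsAlgebraic.isAlgebraic x), hgen, IntermediateField.top_toSubalgebra]
  have h2 : ∀ x ∈ Submonoid.closure ({ζ, α} : Set F), ∃ i j : ℕ, x = ζ ^ i * α ^ j := by
    intro x hx
    induction hx using Submonoid.closure_induction with
    | mem x hx =>
      rcases hx with rfl | rfl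
      · exact ⟨1, 0, by simp⟩
      · exact ⟨0, 1, by simp⟩
    | one => exact ⟨0, 0, by simp⟩
    | mul x y _ _ hx hy =>
      obtain ⟨i, j, rfl⟩ := hx
      obtain ⟨i', j', rfl⟩ := hy
      exact ⟨i + i', j + j', by ring⟩
  rw [eq_top_iff, ← Algebra.top_toSubmodule, ← h1, Algebra.adjoin_eq_span, Submodule.span_le]
  intro x hx
  obtain ⟨i, j, rfl⟩ := h2 x hx
  exact hmem i j

theorem isGalois_kum {m l : ℕ} {a : ℤ} {ζ α : F} (hm : m ≠ 0) (hl : l ∣ m)
    (hζ : IsPrimitiveRoot ζ m) (hα : α ^ l = a) (hgen : IntermediateField.adjoin ℚ {ζ, α} = ⊤) :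
    IsGalois ℚ F := by
  open Polynomial in
  obtain ⟨k, rfl⟩ := hl
  have hl : l ≠ 0 := left_ne_zero_of_mul hm
  have h1 : (X ^ (l * k) - 1 : ℚ[X]) ≠ 0 := by
    simpa using X_pow_sub_C_ne_zero (Nat.pos_of_ne_zero hm) (1 : ℚ)
  have h2 : (X ^ l - C (a : ℚ) : ℚ[X]) ≠ 0 := X_pow_sub_C_ne_zero (Nat.pos_of_ne_zero hl) _
  have : IsSplittingField ℚ F ((X ^ (l * k) - 1) * (X ^ l - C (a : ℚ))) := by
    rw [isSplittingField_iff_intermediateField]
    constructor
    · rw [Polynomial.map_mul]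
      refine Splits.mul ?_ ?_
      · simpa using X_pow_sub_one_splits hζ
      · simpa using X_pow_sub_C_splits_of_isPrimitiveRoot
          (hζ.pow (Nat.pos_of_ne_zero hm) (mul_comm l k)) hα
    · rw [eq_top_iff, ← hgen]
      refine IntermediateField.adjoin.mono _ _ _ ?_
      rintro x (rfl | rfl) <;> rw [mem_rootSet_of_ne (mul_ne_zero h1 h2)]
      · simp [hζ.pow_eq_one]
      · simp [hα]
  have : Normal ℚ F := Normal.of_isSplittingField ((X ^ (l * k) - 1) * (X ^ l - C (a : ℚ)))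
  exact {}

theorem le_finrank_kum {q : ℕ} {a : ℤ} {ζ α : F} (hq : q.Prime) (ha : 2 ≤ |a|) (haq : |a| < 2 ^ q)
    (hζ : IsPrimitiveRoot ζ q) (hα : α ^ q = a) : q * (q - 1) ≤ Module.finrank ℚ F := by
  open Polynomial in
  have hb : ∀ b : ℚ, b ^ q ≠ (a : ℚ) := fun b hb => by
    have hd : b.den = 1 := by
      have := congrArg Rat.den hb
      rw [Rat.den_pow, Rat.den_intCast] at this
      exact (Nat.pow_eq_one.1 this).resolve_right hq.ne_zero
    have hn : b.num ^ q = a := by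
      have := congrArg Rat.num hb
      rwa [Rat.num_pow, Rat.num_intCast] at this
    rw [← hn, abs_pow] at ha haq
    have h2 : |b.num| < 2 := lt_of_pow_lt_pow_left₀ q (by norm_num) haq
    have h3 : |b.num| ^ q ≤ 1 := pow_le_one₀ (abs_nonneg _) (by omega)
    omega
  have e1 : X ^ q - C (a : ℚ) = minpoly ℚ α :=
    minpoly.eq_of_irreducible_of_monic (X_pow_sub_C_irreducible_of_prime hq hb) (by simp [hα])
      (monic_X_pow_sub_C _ hq.ne_zero)
  have d1 := minpoly.degree_dvd (K := ℚ) (x := α) (Algebra.IsIntegral.isIntegral α)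
  rw [← e1, natDegree_X_pow_sub_C] at d1
  have d2 := minpoly.degree_dvd (K := ℚ) (x := ζ) (Algebra.IsIntegral.isIntegral ζ)
  rw [← cyclotomic_eq_minpoly_rat hζ hq.pos, natDegree_cyclotomic, Nat.totient_prime hq] at d2
  refine Nat.le_of_dvd Module.finrank_pos (Nat.Coprime.mul_dvd_of_dvd_of_dvd ?_ d1 d2)
  exact (Nat.coprime_self_sub_right hq.one_le).2 (Nat.coprime_one_right q)

theorem isTotallyComplex_of_root {m : ℕ} {ζ : F} (hm : 2 < m) (hζ : IsPrimitiveRoot ζ m) :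
    IsTotallyComplex F := by
  exact nrRealPlaces_eq_zero_iff.1 (InfinitePlace.IsPrimitiveRoot.nrRealPlaces_eq_zero_of_two_lt hm hζ)

theorem exists_kum {q : ℕ} (hq : q ≠ 0) (a : ℤ) :
    ∃ (F : Type) (_ : Field F) (_ : NumberField F) (ζ α : F), IsPrimitiveRoot ζ q ∧ α ^ q = a ∧
      IntermediateField.adjoin ℚ {ζ, α} = ⊤ := by
  obtain ⟨α, hα⟩ := IsAlgClosed.exists_pow_nat_eq (a : ℂ) (Nat.pos_of_ne_zero hq)
  have hζ := Complex.isPrimitiveRoot_exp q hq
  set ζ := Complex.exp (2 * Real.pi * Complex.I / q)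
  have i1 : IsIntegral ℚ ζ := (hζ.isIntegral (Nat.pos_of_ne_zero hq)).tower_top
  have i2 : IsIntegral ℚ α := IsIntegral.of_pow (Nat.pos_of_ne_zero hq) (by
    rw [hα, ← map_intCast (algebraMap ℚ ℂ)]; exact isIntegral_algebraMap)
  set K := IntermediateField.adjoin ℚ ({ζ, α} : Set ℂ)
  have : FiniteDimensional ℚ K := IntermediateField.finiteDimensional_adjoin_pair i1 i2
  have : NumberField K := {}
  have m1 : ζ ∈ K := IntermediateField.subset_adjoin _ _ (by simp)
  have m2 : α ∈ K := IntermediateField.subset_adjoin _ _ (by simp)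
  refine ⟨K, inferInstance, this, ⟨ζ, m1⟩, ⟨α, m2⟩, ?_, ?_, ?_⟩
  · exact IsPrimitiveRoot.coe_submonoidClass_iff.1 hζ
  · exact Subtype.ext (by simpa using hα)
  · apply IntermediateField.lift_injective K
    exact ((IntermediateField.lift_adjoin ℚ K _).trans (by rw [Set.image_pair])).trans
      (IntermediateField.lift_top ℚ K).symm

end Crest.Agent.R27
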