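import Crest.Agent.R27.KumA

/-! Row 27: the discriminant of `ℚ(ζ, α)`; the Kummer statement. -/

set_option autoImplicit false

namespace Crest.Agent.R27

open Finset Filter NumberField

variable {F : Type} [Field F] [NumberField F]

/-- A spanning family of integers with small conjugates bounds the discriminant. -/
theorem discr_le_of_span {ι : Type} (v : ι → F) (hv : ∀ i, IsIntegral ℤ (v i))
    (hspan : Submodule.span ℚ (Set.range v) = ⊤) {B : ℝ} (hB : ∀ i (σ : F →+* ℂ), ‖σ (v i)‖ ≤ B) :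
    |(discr F : ℝ)| ≤ ((Module.finrank ℚ F : ℝ) * B) ^ (2 * Module.finrank ℚ F) := by
  classical
  obtain ⟨κ, a, -, hsp, hli⟩ := exists_linearIndependent' ℚ v
  rw [hspan] at hsp
  let b₀ : Module.Basis κ ℚ F := Module.Basis.mk hli hsp.ge
  let I := Module.Free.ChooseBasisIndex ℤ (𝓞 F)
  let b : Module.Basis I ℚ F := b₀.reindex (b₀.indexEquiv (integralBasis F))
  have hb : ∀ i, ∃ j, b i = v j := fun i =>
    ⟨a ((b₀.indexEquiv (integralBasis F)).symm i), by simp [b, b₀]⟩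
  choose j hj using hb
  let P : Matrix I I ℤ := Matrix.of fun i k =>
    (RingOfIntegers.basis F).repr (⟨v (j i), hv _⟩ : 𝓞 F) k
  have hP : (b : I → F) =
      Matrix.mulVec ((P.map (algebraMap ℤ ℚ)).map (algebraMap ℚ F)) (integralBasis F) := by
    funext i
    rw [hj i, ← (integralBasis F).sum_repr (v (j i))]
    simp only [Matrix.mulVec, dotProduct, Matrix.map_apply, P, Matrix.of_apply, Algebra.smul_def]
    refine Finset.sum_congr rfl fun k _ => ?_
    rw [← integralBasis_repr_apply]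
    rfl
  have h1 : Algebra.discr ℚ b = ((P.det : ℤ) : ℚ) ^ 2 * (discr F : ℚ) := by
    rw [hP, Algebra.discr_of_matrix_mulVec, coe_discr, ← RingHom.mapMatrix_apply,
      ← RingHom.map_det]
    rfl
  have h2 : P.det ≠ 0 := by
    intro h
    apply Algebra.discr_not_zero_of_basis ℚ b
    rw [h1, h]; simp
  have hcard : Fintype.card I = Module.finrank ℚ F := (Module.finrank_eq_card_basis b).symm
  obtain ⟨e⟩ : Nonempty (I ≃ (F →ₐ[ℚ] ℂ)) :=
    ⟨Fintype.equivOfCardEq (by rw [hcard, AlgHom.card])⟩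
  have h3 := Algebra.discr_eq_det_embeddingsMatrixReindex_pow_two ℚ ℂ b e
  have h4 : ‖(Algebra.embeddingsMatrixReindex ℚ ℂ b e).det‖ ≤
      (Fintype.card I).factorial • B ^ Fintype.card I :=
    Matrix.det_le (abv := IsAbsoluteValue.toAbsoluteValue (norm : ℂ → ℝ)) fun i k => by
      have := hB (j i) (e k : F →+* ℂ)
      rw [← hj] at this
      exact this
  have hB0 : 0 ≤ B := by
    have : Nonempty I := Fintype.card_pos_iff.1 (hcard ▸ Module.finrank_pos)
    obtain ⟨i⟩ := this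
    exact (norm_nonneg _).trans (hB (j i) (e i : F →+* ℂ))
  have h5 : ‖(Algebra.embeddingsMatrixReindex ℚ ℂ b e).det‖ ≤
      ((Module.finrank ℚ F : ℝ) * B) ^ Module.finrank ℚ F := by
    refine h4.trans ?_
    rw [hcard, nsmul_eq_mul, mul_pow]
    gcongr
    exact_mod_cast Nat.factorial_le_pow _
  have h6 : ((P.det : ℤ) : ℝ) ^ 2 * |(discr F : ℝ)| =
      ‖(Algebra.embeddingsMatrixReindex ℚ ℂ b e).det‖ ^ 2 := by
    rw [← norm_pow, ← h3, h1]
    simp
  have h7 : (1 : ℝ) ≤ ((P.det : ℤ) : ℝ) ^ 2 := by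
    have : 1 ≤ P.det ^ 2 := by
      have := Int.one_le_abs h2
      nlinarith [sq_abs P.det]
    exact_mod_cast this
  calc |(discr F : ℝ)| ≤ ((P.det : ℤ) : ℝ) ^ 2 * |(discr F : ℝ)| :=
        le_mul_of_one_le_left (abs_nonneg _) h7
    _ ≤ (((Module.finrank ℚ F : ℝ) * B) ^ Module.finrank ℚ F) ^ 2 := by
        rw [h6]; gcongr
    _ = _ := by rw [← pow_mul, mul_comm 2]

theorem log_discr_kum {m l : ℕ} {a : ℤ} {ζ α : F} (hm : m ≠ 0) (hl : l ≠ 0) (ha : a ≠ 0)
    (hζ : ζ ^ m = 1) (hα : α ^ l = a) (hgen : IntermediateField.adjoin ℚ {ζ, α} = ⊤) :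
    Module.finrank ℚ F ≤ m * l ∧
      Real.log |(discr F : ℝ)| ≤ 2 * Module.finrank ℚ F * Real.log (m * l * |(a : ℝ)|) := by
  have hsp := span_mono hm hl hζ hα hgen
  have h1 : Module.finrank ℚ F ≤ m * l := by
    have := finrank_range_le_card (R := ℚ)
      fun ij : Fin m × Fin l => ζ ^ (ij.1 : ℕ) * α ^ (ij.2 : ℕ)
    rw [Set.finrank, hsp, finrank_top] at this
    simpa using this
  refine ⟨h1, ?_⟩
  have hζi : IsIntegral ℤ ζ := IsIntegral.of_pow (Nat.pos_of_ne_zero hm) (hζ ▸ isIntegral_one)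
  have hαi : IsIntegral ℤ α := IsIntegral.of_pow (Nat.pos_of_ne_zero hl)
    (hα ▸ by exact_mod_cast isIntegral_algebraMap (x := a))
  have ha1 : (1 : ℝ) ≤ |(a : ℝ)| := by exact_mod_cast Int.one_le_abs ha
  have h2 := discr_le_of_span _ (fun ij => (hζi.pow _).mul (hαi.pow _)) hsp (B := |(a : ℝ)|)
    fun ij σ => by
      have e1 : ‖σ ζ‖ = 1 := by
        refine (pow_eq_one_iff_of_nonneg (norm_nonneg _) hm).1 ?_
        rw [← norm_pow, ← map_pow, hζ, map_one, norm_one]
      have e2 : ‖σ α‖ ^ l = |(a : ℝ)| := by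
        rw [← norm_pow, ← map_pow, hα, map_intCast, Complex.norm_intCast]
      have e3 : 1 ≤ ‖σ α‖ := (one_le_pow_iff_of_nonneg (norm_nonneg _) hl).1 (e2 ▸ ha1)
      rw [map_mul, map_pow, map_pow, norm_mul, norm_pow, norm_pow, e1, one_pow, one_mul, ← e2]
      exact pow_le_pow_right₀ e3 ij.2.2.le
  have h3 : 0 < |(discr F : ℝ)| := abs_pos.2 (by exact_mod_cast discr_ne_zero F)
  have h4 : (0 : ℝ) < Module.finrank ℚ F := by exact_mod_cast Module.finrank_pos
  refine (Real.log_le_log h3 h2).trans ?_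
  rw [Real.log_pow]
  push_cast
  gcongr
  exact_mod_cast h1

end Crest.Agent.R27
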